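import Mathlib.Analysis.InnerProductSpace.LinearPMap
import Mathlib.Analysis.InnerProductSpace.PiL2
import Mathlib.Analysis.Matrix.HermitianFunctionalCalculus
import Mathlib.Analysis.Matrix.PosDef
import Mathlib.Analysis.Calculus.ContDiff.Defs
import Mathlib.Analysis.Calculus.Deriv.Basic
import Mathlib.Analysis.SpecialFunctions.Gamma.Basic
import Mathlib.Data.Real.ENatENNReal
import Mathlib.MeasureTheory.Function.L2Space
import Mathlib.MeasureTheory.Measure.Lebesgue.Basic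
import Mathlib.SetTheory.Cardinal.ENat

/-!
The operator `H_W = -d²/dx² - W` on `L²(ℝ; ℂ^m)` as the self-adjoint operator of its form, the
trace of the power `γ` of its negative part, and the Lieb-Thirring constants.
-/

namespace Vale.Agent.P371W

open MeasureTheory Filter Topology
open scoped ENNReal ComplexOrder ContDiff

noncomputable section

section operators

variable {E : Type} [NormedAddCommGroup E] [NormedSpace ℂ E]

/-- The spectrum of an unbounded operator `A`: the numbers `z` such that `A - z` is not a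
bijection from the domain of `A` onto the space with a bounded inverse. -/
def spec (A : E →ₗ.[ℂ] E) : Set ℂ :=
  {z | ¬ ∃ R : E →L[ℂ] E, (∀ ψ : A.domain, R (A ψ - z • (ψ : E)) = ψ) ∧
    ∀ η : E, ∃ ψ : A.domain, A ψ - z • (ψ : E) = η}

/-- The eigenspace `ker (A - t)`: the vectors `ψ` in the domain of `A` with `A ψ = t ψ`. -/
def eig (A : E →ₗ.[ℂ] E) (t : ℝ) : Submodule ℂ E where
  carrier := {ψ | (ψ, (t : ℂ) • ψ) ∈ A.graph}
  add_mem' h1 h2 := by simpa [smul_add] using A.graph.add_mem h1 h2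
  zero_mem' := by
    change ((0 : E), (t : ℂ) • (0 : E)) ∈ A.graph
    rw [smul_zero]
    exact A.graph.zero_mem
  smul_mem' c ψ h := by simpa [smul_comm c] using A.graph.smul_mem c h

/-- The multiplicity of `t` as an eigenvalue of `A`: the dimension of the eigenspace, a natural
number or `∞` (it is `0` if `t` is not an eigenvalue). -/
def mult (A : E →ₗ.[ℂ] E) (t : ℝ) : ℕ∞ := (Module.rank ℂ (eig A t)).toENat

/-- `Tr A_-^γ = ∑_j |λ_j|^γ`, the sum over the negative eigenvalues with multiplicity. -/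
def trNeg (γ : ℝ) (A : E →ₗ.[ℂ] E) : ℝ≥0∞ :=
  ∑' t : Set.Iio (0 : ℝ), (mult A t : ℝ≥0∞) * ENNReal.ofReal (|t.1| ^ γ)

/-- `|λ_1|^γ` for the lowest negative eigenvalue `λ_1` of `A` (and `0` if there is none). -/
def lowest (γ : ℝ) (A : E →ₗ.[ℂ] E) : ℝ≥0∞ :=
  ⨆ (t : ℝ) (_ : IsLeast {s : ℝ | s < 0 ∧ eig A s ≠ ⊥} t), ENNReal.ofReal (|t| ^ γ)

end operators

/-- The Hilbert space `L²(ℝ; ℂ^m)`. -/
abbrev L2 (m : ℕ) : Type := Lp (EuclideanSpace ℂ (Fin m)) 2 (volume : Measure ℝ)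

variable {m : ℕ}

/-- `χ` is the weak (distributional) derivative of `ψ`. -/
def IsWeakDeriv (ψ χ : L2 m) : Prop :=
  ∀ φ : ℝ → ℝ, ContDiff ℝ ∞ φ → HasCompactSupport φ →
    ∫ x, deriv φ x • ψ x = -∫ x, φ x • χ x

/-- The Sobolev space `H¹(ℝ; ℂ^m)`: the weak derivative exists in `L²`. -/
def InH1 (ψ : L2 m) : Prop := ∃ χ, IsWeakDeriv ψ χ

/-- The weak derivative `ψ'` in `L²` of `ψ` in `H¹`. -/
def wd (ψ : L2 m) : L2 m := Classical.epsilon (IsWeakDeriv ψ)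

/-- The sesquilinear form `∫ ⟨φ', ψ'⟩ - ∫ ⟨φ, W ψ⟩`. -/
def form (W : ℝ → Matrix (Fin m) (Fin m) ℂ) (φ ψ : L2 m) : ℂ :=
  (∫ x, inner ℂ (wd φ x) (wd ψ x)) - ∫ x, inner ℂ (φ x) (Matrix.toEuclideanLin (W x) (ψ x))

/-- The form on `H¹` is well defined, densely defined, bounded below and closed. -/
structure IsClosedForm (W : ℝ → Matrix (Fin m) (Fin m) ℂ) : Prop where
  int : ∀ φ ψ : L2 m, InH1 φ → InH1 ψ →
    Integrable fun x => (inner ℂ (φ x) (Matrix.toEuclideanLin (W x) (ψ x)) : ℂ)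
  dense : Dense {ψ : L2 m | InH1 ψ}
  low : ∃ c : ℝ, ∀ ψ, InH1 ψ → c * ‖ψ‖ ^ 2 ≤ (form W ψ ψ).re
  closed : ∀ (ψ : ℕ → L2 m) (φ : L2 m), (∀ n, InH1 (ψ n)) → Tendsto ψ atTop (𝓝 φ) →
    Tendsto (fun p : ℕ × ℕ => form W (ψ p.1 - ψ p.2) (ψ p.1 - ψ p.2)) atTop (𝓝 0) →
    InH1 φ ∧ Tendsto (fun n => form W (ψ n - φ) (ψ n - φ)) atTop (𝓝 0)

/-- The graph of the operator of the form: the pairs `(ψ, η)` with `ψ` in `H¹` and
`form φ ψ = ⟪φ, η⟫` for all `φ` in `H¹`. -/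
def formGraph (W : ℝ → Matrix (Fin m) (Fin m) ℂ) : Set (L2 m × L2 m) :=
  {p | InH1 p.1 ∧ ∀ φ, InH1 φ → form W φ p.1 = inner ℂ φ p.2}

/-- The operator `H_W = -d²/dx² - W` of the form: the operator with graph `formGraph W`. -/
def ham (W : ℝ → Matrix (Fin m) (Fin m) ℂ) : L2 m →ₗ.[ℂ] L2 m :=
  (Submodule.span ℂ (formGraph W)).toLinearPMap

/-- `tr (M ^ p)`, the power taken by functional calculus. -/
def trPow (p : ℝ) (M : Matrix (Fin m) (Fin m) ℂ) : ℝ := (cfc (fun t : ℝ => t ^ p) M).trace.re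

/-- Potentials: Lebesgue measurable, positive semidefinite, with `∫ tr W^p < ∞`. -/
structure Potential (p : ℝ) (W : ℝ → Matrix (Fin m) (Fin m) ℂ) : Prop where
  measurable : ∀ i j, AEMeasurable fun x => W x i j
  posSemidef : ∀ x, (W x).PosSemidef
  integrable : Integrable fun x => trPow p (W x)

/-- The Lieb-Thirring constant `L_γ(m)`. -/
def LTconst (γ : ℝ) (m : ℕ) : ℝ≥0∞ :=
  ⨆ (W : ℝ → Matrix (Fin m) (Fin m) ℂ) (_ : Potential (γ + 1 / 2) W) (_ : ¬ W =ᵐ[volume] 0),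
    trNeg γ (ham W) / ENNReal.ofReal (∫ x, trPow (γ + 1 / 2) (W x))

/-- The one-bound-state constant `L^{(1)}_γ`. -/
def LTone (γ : ℝ) : ℝ≥0∞ :=
  ⨆ (W : ℝ → Matrix (Fin 1) (Fin 1) ℂ) (_ : Potential (γ + 1 / 2) W) (_ : ¬ W =ᵐ[volume] 0),
    lowest γ (ham W) / ENNReal.ofReal (∫ x, trPow (γ + 1 / 2) (W x))

/-- The semiclassical constant `L^{cl}_γ`. -/
def Lcl (γ : ℝ) : ℝ :=
  Real.Gamma (γ + 1) / (2 * Real.sqrt Real.pi * Real.Gamma (γ + 3 / 2))

end

end Vale.Agent.P371W
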