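import Mathlib.Analysis.InnerProductSpace.Positive
import Mathlib.Analysis.Normed.Operator.Compact.FredholmAlternative
import Vale.Agent.P371W95.Defs

/-! The self-adjoint operator of a coercive form and its negative spectrum. -/

set_option linter.all false

namespace Vale.Agent.P371W

open Filter Topology ContinuousLinearMap
open scoped ComplexConjugate

variable {W H : Type} [NormedAddCommGroup W] [InnerProductSpace ℂ W] [CompleteSpace W]
  [NormedAddCommGroup H] [InnerProductSpace ℂ H] [CompleteSpace H]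

/-- the form `⟪u, B v⟫` on the Hilbert space `W`, embedded in `H` by `J`, and its operator `A` -/
structure Kit (J : W →L[ℂ] H) (B : W →L[ℂ] W) (A : H →ₗ.[ℂ] H) : Prop where
  den : DenseRange J
  sa : ∀ u v, inner ℂ (B u) v = inner ℂ u (B v)
  coe : ∃ c : ℝ, 0 < c ∧ ∃ m : ℝ, 0 ≤ m ∧ ∀ u, c * ‖u‖ ^ 2 ≤ (inner ℂ u (B u)).re + m * ‖J u‖ ^ 2
  gr : ∀ p, p ∈ A.graph ↔ ∃ u, J u = p.1 ∧ ∀ v, inner ℂ v (B u) = inner ℂ (J v) p.2

theorem graph_span {J : W →L[ℂ] H} (hJ : DenseRange J) (hi : Function.Injective J)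
    {B : W →L[ℂ] W} {G : Set (H × H)}
    (hG : ∀ p, p ∈ G ↔ ∃ u, J u = p.1 ∧ ∀ v, inner ℂ v (B u) = inner ℂ (J v) p.2) :
    ((Submodule.span ℂ G).toLinearPMap.graph : Set (H × H)) = G := by
  have k : ∀ p ∈ Submodule.span ℂ G, p ∈ G := fun p hp => by
    rw [hG]
    induction hp using Submodule.span_induction with
    | mem p hp => exact (hG p).1 hp
    | zero => exact ⟨0, by simp, by simp⟩
    | add p q _ _ hp hq =>
      obtain ⟨u, h1, h2⟩ := hp
      obtain ⟨v, h3, h4⟩ := hq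
      exact ⟨u + v, by rw [map_add, h1, h3]; rfl, fun z => by
        rw [map_add, inner_add_right, h2, h4, Prod.snd_add, inner_add_right]⟩
    | smul a p _ hp =>
      obtain ⟨u, h1, h2⟩ := hp
      exact ⟨a • u, by rw [map_smul, h1]; rfl, fun z => by
        rw [map_smul, inner_smul_right, h2, Prod.smul_snd, inner_smul_right]⟩
  rw [Submodule.toLinearPMap_graph_eq]
  · exact Set.Subset.antisymm k Submodule.subset_span
  · intro p hp h0
    obtain ⟨u, h1, h2⟩ := (hG p).1 (k p hp)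
    obtain rfl : u = 0 := hi (by rw [h1, h0, map_zero])
    refine hJ.eq_zero_of_inner_right ℂ fun v => ?_
    rw [← h2, map_zero, inner_zero_right]

theorem exists_op (s : W → W → ℂ) (h1 : ∀ u v w, s u (v + w) = s u v + s u w)
    (h2 : ∀ (c : ℂ) u v, s u (c • v) = c * s u v) (h3 : ∀ u v, conj (s u v) = s v u) {C : ℝ}
    (hb : ∀ u v, ‖s u v‖ ≤ C * ‖u‖ * ‖v‖) : ∃ V : W →L[ℂ] W, ∀ u v, inner ℂ u (V v) = s u v := by
  let L : W →ₗ⋆[ℂ] W →ₗ[ℂ] ℂ := LinearMap.mk₂'ₛₗ (starRingEnd ℂ) (RingHom.id ℂ) s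
    (fun u v w => by rw [← h3, h1, map_add, h3, h3])
    (fun c u v => by rw [← h3, h2, map_mul, h3]; rfl) h1 h2
  refine ⟨InnerProductSpace.continuousLinearMapOfBilin (L.mkContinuous₂ C hb), fun u v => ?_⟩
  rw [← inner_conj_symm, InnerProductSpace.continuousLinearMapOfBilin_apply, ← h3 v u]
  rfl

theorem norm_le_of_inner {T : W →L[ℂ] W} {C : ℝ} (hC : 0 ≤ C)
    (h : ∀ u v, ‖inner ℂ u (T v)‖ ≤ C * ‖u‖ * ‖v‖) : ‖T‖ ≤ C := by
  refine T.opNorm_le_bound hC fun v => ?_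
  have h1 := h (T v) v
  rw [inner_self_eq_norm_sq_to_K, norm_pow, RCLike.norm_ofReal, abs_norm] at h1
  rcases (norm_nonneg (T v)).eq_or_lt with h0 | h0
  · rw [← h0]; positivity
  · nlinarith

theorem spec_of_eig {A : H →ₗ.[ℂ] H} {t : ℝ} (h : eig A t ≠ ⊥) : (t : ℂ) ∈ spec A := by
  rintro ⟨R, h1, -⟩
  refine h (Submodule.eq_bot_iff _ |>.2 fun ψ hψ => ?_)
  obtain ⟨y, hy, hy'⟩ := A.mem_graph_iff.1 hψ
  have := h1 y
  simp only at hy hy'
  rw [hy', hy, sub_self, map_zero] at this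
  exact this.symm

namespace Kit

variable {J : W →L[ℂ] H} {B : W →L[ℂ] W} {A : H →ₗ.[ℂ] H} (h : Kit J B A)
include h

theorem real (u : W) : inner ℂ u (B u) = ((inner ℂ u (B u)).re : ℂ) := by
  refine (Complex.conj_eq_iff_re.1 ?_).symm
  rw [inner_conj_symm, h.sa]

theorem opT (z : ℂ) (u v : W) : inner ℂ v ((B - z • (adjoint J ∘L J)) u) =
    inner ℂ v (B u) - z * inner ℂ (J v) (J u) := by
  simp only [sub_apply, smul_apply, comp_apply, inner_sub_right, inner_smul_right,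
    adjoint_inner_right]

theorem solveU {z : ℂ} (hu : IsUnit (B - z • (adjoint J ∘L J))) :
    ∃ S : H →L[ℂ] W, (∀ η v, inner ℂ v (B (S η)) = inner ℂ (J v) (η + z • J (S η))) ∧
      ∀ u η, (∀ v, inner ℂ v (B u) = inner ℂ (J v) η) → S (η - z • J u) = u := by
  have e := h.opT z
  set T : W →L[ℂ] W := B - z • (adjoint J ∘L J) with hT
  obtain ⟨U, hU⟩ := hu
  have i1 : ∀ u, T ((↑U⁻¹ : W →L[ℂ] W) u) = u := fun u => by
    rw [← hU]; exact DFunLike.congr_fun U.mul_inv u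
  have i2 : ∀ u, (↑U⁻¹ : W →L[ℂ] W) (T u) = u := fun u => by
    rw [← hU]; exact DFunLike.congr_fun U.inv_mul u
  refine ⟨(↑U⁻¹ : W →L[ℂ] W) ∘L adjoint J, fun η v => ?_, fun u η hu => ?_⟩
  · have := e ((↑U⁻¹ : W →L[ℂ] W) (adjoint J η)) v
    rw [i1, adjoint_inner_right] at this
    rw [inner_add_right, inner_smul_right, comp_apply, this]
    ring
  · rw [comp_apply, ← i2 u]
    congr 1
    refine ext_inner_left ℂ fun v => ?_
    rw [e, hu, adjoint_inner_right, i2, inner_sub_right, inner_smul_right]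

theorem unit {z : ℂ} {d : ℝ} (hd : 0 < d)
    (hz : ∀ u, d * ‖J u‖ ^ 2 ≤ ‖((inner ℂ u (B u)).re : ℂ) - z * (‖J u‖ ^ 2 : ℝ)‖) :
    IsUnit (B - z • (adjoint J ∘L J)) := by
  obtain ⟨c, hc, m, hm, hco⟩ := h.coe
  have e := h.opT z
  set T : W →L[ℂ] W := B - z • (adjoint J ∘L J) with hT
  have hk : 0 < c / (1 + (‖z‖ + m) / d) := by positivity
  refine isUnit_of_forall_le_norm_inner_map T (c := ⟨_, hk.le⟩) hk fun u => ?_
  rw [← inner_conj_symm, RCLike.norm_conj, e, h.real, inner_self_eq_norm_sq_to_K]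
  have h1 := hz u
  have h2 := hco u
  set a := (inner ℂ u (B u)).re
  set b := ‖J u‖ ^ 2 with hb
  have hb0 : 0 ≤ b := by positivity
  have e2 : ((‖J u‖ : ℝ) : ℂ) ^ 2 = (b : ℝ) := by rw [hb]; push_cast; rfl
  change ‖u‖ ^ 2 * (c / (1 + (‖z‖ + m) / d)) ≤ ‖(a : ℂ) - z * ((‖J u‖ : ℝ) : ℂ) ^ 2‖
  rw [e2]
  set n := ‖(a : ℂ) - z * (b : ℝ)‖
  have h3 : a ≤ n + ‖z‖ * b := by
    have h4 := Complex.re_le_norm ((a : ℂ) - z * (b : ℝ))
    have h5 := Complex.re_le_norm z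
    simp only [Complex.sub_re, Complex.ofReal_re, Complex.mul_re, Complex.ofReal_im, mul_zero,
      sub_zero] at h4
    nlinarith
  have h6 : b ≤ n / d := by rw [le_div_iff₀ hd]; linarith
  have h7 : (‖z‖ + m) * b ≤ (‖z‖ + m) * (n / d) := by gcongr
  rw [← mul_div_assoc, div_le_iff₀ (by positivity)]
  have : n * (1 + (‖z‖ + m) / d) = n + (‖z‖ + m) * (n / d) := by ring
  nlinarith

theorem resU {z : ℂ} (hu : IsUnit (B - z • (adjoint J ∘L J))) : z ∉ spec A := by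
  obtain ⟨S, h1, h2⟩ := h.solveU hu
  refine not_not.2 ⟨J ∘L S, fun ψ => ?_, fun η => ?_⟩
  · obtain ⟨u, hu, hv⟩ := (h.gr _).1 (A.mem_graph ψ)
    simp only at hu hv
    rw [comp_apply, ← hu, h2 u _ hv]
  · obtain ⟨y, hy, hy'⟩ := A.mem_graph_iff.1 ((h.gr (J (S η), η + z • J (S η))).2 ⟨_, rfl, h1 η⟩)
    exact ⟨y, by rw [hy, hy', add_sub_cancel_right]⟩

theorem resI {z : ℂ} (hz : z.im ≠ 0) (u : W) :
    |z.im| * ‖J u‖ ^ 2 ≤ ‖((inner ℂ u (B u)).re : ℂ) - z * (‖J u‖ ^ 2 : ℝ)‖ := by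
  refine le_trans (le_of_eq ?_) (Complex.abs_im_le_norm _)
  simp only [Complex.sub_im, Complex.ofReal_im, Complex.mul_im, Complex.ofReal_re, mul_zero,
    zero_add, zero_sub, abs_neg, abs_mul, abs_pow, abs_norm]

theorem sym {p q : H × H} (hp : p ∈ A.graph) (hq : q ∈ A.graph) :
    inner ℂ p.2 q.1 = inner ℂ p.1 q.2 := by
  obtain ⟨u, hu, hu'⟩ := (h.gr _).1 hp
  obtain ⟨v, hv, hv'⟩ := (h.gr _).1 hq
  rw [← hu, ← hv, ← hv', ← h.sa, ← inner_conj_symm, ← hu', inner_conj_symm]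

theorem onto {z : ℂ} (hz : z.im ≠ 0) (η : H) : ∃ ψ, (ψ, η + z • ψ) ∈ A.graph := by
  obtain ⟨S, h1, -⟩ := h.solveU (h.unit (abs_pos.2 hz) (h.resI hz))
  exact ⟨_, (h.gr (J (S η), η + z • J (S η))).2 ⟨_, rfl, h1 η⟩⟩

theorem dense : Dense (A.domain : Set H) := by
  rw [Submodule.dense_iff_topologicalClosure_eq_top, Submodule.topologicalClosure_eq_top_iff,
    Submodule.eq_bot_iff]
  intro ξ hξ
  obtain ⟨ψ, hψ⟩ := h.onto (z := Complex.I) (by simp) ξ
  have h0 : inner ℂ ψ ξ = 0 := hξ ψ (LinearPMap.mem_domain_of_mem_graph hψ)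
  have h1 := h.sym hψ hψ
  have h0' : inner ℂ ξ ψ = 0 := by rw [← inner_conj_symm, h0, map_zero]
  simp only [inner_add_left, inner_add_right, inner_smul_left, inner_smul_right, h0, h0',
    Complex.conj_I] at h1
  have h2 : ψ = 0 := (inner_self_eq_zero (𝕜 := ℂ)).1 (by
    linear_combination (Complex.I / 2) * h1 + (inner ℂ ψ ψ) * Complex.I_mul_I)
  rw [h2] at hψ
  simpa using A.graph_fst_eq_zero_snd hψ rfl

theorem selfAdjoint : IsSelfAdjoint A := by
  refine LinearPMap.isSelfAdjoint_def.2 (LinearPMap.eq_of_eq_graph ?_)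
  rw [LinearPMap.adjoint_graph_eq_graph_adjoint h.dense]
  ext p
  rw [Submodule.mem_adjoint_iff]
  refine ⟨fun hp => ?_, fun hp a b hab => sub_eq_zero.2 (h.sym hab hp)⟩
  obtain ⟨ψ, hψ⟩ := h.onto (z := Complex.I) (by simp) (p.2 - Complex.I • p.1)
  obtain ⟨χ, hχ⟩ := h.onto (z := -Complex.I) (by simp) (p.1 - ψ)
  have h1 := hp _ _ hχ
  have h2 := h.sym hχ hψ
  have h3 : p.1 - ψ = 0 := by
    refine (inner_self_eq_zero (𝕜 := ℂ)).1 ?_
    rw [inner_sub_right]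
    simp only [inner_add_left, inner_add_right, inner_smul_left, inner_smul_right, map_neg,
      Complex.conj_I, neg_neg, inner_sub_right] at h1 h2
    linear_combination h1 - h2
  rw [← sub_eq_zero.1 h3, sub_add_cancel] at hψ
  exact hψ

theorem im_zero {z : ℂ} (hz : z ∈ spec A) : z.im = 0 := by
  by_contra h0
  exact h.resU (h.unit (abs_pos.2 h0) (h.resI h0)) hz

theorem closed {u : ℕ → W} {φ : H} (h1 : Tendsto (fun n => J (u n)) atTop (𝓝 φ))
    (h2 : Tendsto (fun p : ℕ × ℕ => inner ℂ (u p.1 - u p.2) (B (u p.1 - u p.2))) atTop (𝓝 0)) :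
    ∃ v, J v = φ ∧ Tendsto (fun n => inner ℂ (u n - v) (B (u n - v))) atTop (𝓝 0) := by
  obtain ⟨c, hc, m, hm, hco⟩ := h.coe
  have t1 : Tendsto (fun p : ℕ × ℕ => ‖J (u p.1 - u p.2)‖) atTop (𝓝 0) := by
    have := cauchySeq_iff_tendsto_dist_atTop_0.1 h1.cauchySeq
    simpa only [dist_eq_norm, map_sub] using this
  have t2 := ((Complex.continuous_re.tendsto 0).comp h2).add ((t1.pow 2).const_mul m)
  have t3 : CauchySeq u := by
    rw [cauchySeq_iff_tendsto_dist_atTop_0]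
    have t4 := (Real.continuous_sqrt.tendsto _).comp (t2.div_const c)
    simp only [Complex.zero_re, ne_eq, OfNat.ofNat_ne_zero, not_false_eq_true, zero_pow, mul_zero,
      add_zero, zero_div, Real.sqrt_zero] at t4
    refine squeeze_zero (fun _ => dist_nonneg) (fun p => ?_) t4
    rw [dist_eq_norm]
    refine Real.le_sqrt_of_sq_le ?_
    rw [le_div_iff₀ hc, mul_comm]
    exact hco _
  obtain ⟨v, hv⟩ := cauchySeq_tendsto_of_complete t3
  refine ⟨v, tendsto_nhds_unique ((J.continuous.tendsto v).comp hv) h1, ?_⟩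
  have t5 := hv.sub_const v
  simpa using t5.inner (𝕜 := ℂ) ((B.continuous.tendsto _).comp t5)

theorem eig_of_spec {V : W →L[ℂ] W} (hV : IsCompactOperator V)
    (hB : ∀ u v, inner ℂ v (B u) = inner ℂ v u - inner ℂ (J v) (J u) - inner ℂ v (V u))
    (hJ : ∀ u, ‖J u‖ ≤ ‖u‖) (hi : Function.Injective J) {t : ℝ} (ht : t < 0)
    (hs : (t : ℂ) ∈ spec A) : eig A t ≠ ⊥ := by
  set P : W →L[ℂ] W := B - (t : ℂ) • (adjoint J ∘L J) + V with hP
  have hk : 0 < min 1 (-t) := lt_min one_pos (by linarith)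
  obtain ⟨U, hU⟩ : IsUnit P := by
    refine isUnit_of_forall_le_norm_inner_map P (c := ⟨_, hk.le⟩) hk fun u => ?_
    rw [← inner_conj_symm, RCLike.norm_conj, hP, add_apply, inner_add_right, h.opT, hB,
      inner_self_eq_norm_sq_to_K, inner_self_eq_norm_sq_to_K]
    refine le_trans ?_ (Complex.re_le_norm _)
    have e : ((‖u‖ : ℝ) : ℂ) ^ 2 - ((‖J u‖ : ℝ) : ℂ) ^ 2 - inner ℂ u (V u) -
        (t : ℂ) * ((‖J u‖ : ℝ) : ℂ) ^ 2 + inner ℂ u (V u) =
        ((‖u‖ ^ 2 - (1 + t) * ‖J u‖ ^ 2 : ℝ) : ℂ) := by push_cast; ring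
    change ‖u‖ ^ 2 * min 1 (-t) ≤ (((‖u‖ : ℝ) : ℂ) ^ 2 - ((‖J u‖ : ℝ) : ℂ) ^ 2 - inner ℂ u (V u) -
        (t : ℂ) * ((‖J u‖ : ℝ) : ℂ) ^ 2 + inner ℂ u (V u)).re
    rw [e, Complex.ofReal_re]
    have h1 : ‖J u‖ ^ 2 ≤ ‖u‖ ^ 2 := by gcongr; exact hJ u
    have h2 := min_le_left 1 (-t)
    have h3 := min_le_right 1 (-t)
    have h4 := sq_nonneg ‖J u‖
    rcases le_total (1 + t) 0 with h5 | h5
    · nlinarith
    · nlinarith
  have hK : IsCompactOperator ((↑U⁻¹ : W →L[ℂ] W) * V) := hV.clm_comp (↑U⁻¹ : W →L[ℂ] W)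
  have e : B - (t : ℂ) • (adjoint J ∘L J) = U * (1 - (↑U⁻¹ : W →L[ℂ] W) * V) := by
    rw [mul_sub, mul_one, ← mul_assoc, U.mul_inv, one_mul, hU, hP, add_sub_cancel_right]
  rcases hK.hasEigenvalue_or_mem_resolventSet one_ne_zero with h1 | h1
  · obtain ⟨u, hu⟩ := h1.exists_hasEigenvector
    have h2 : ((↑U⁻¹ : W →L[ℂ] W) * V) u = u := by simpa using hu.apply_eq_smul
    have h3 : (B - (t : ℂ) • (adjoint J ∘L J)) u = 0 := by
      rw [e]
      change (U : W →L[ℂ] W) (u - ((↑U⁻¹ : W →L[ℂ] W) * V) u) = 0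
      rw [h2, sub_self, map_zero]
    have h4 : J u ∈ eig A t := (h.gr _).2 ⟨u, rfl, fun v => by
      have := h.opT t u v
      rw [h3, inner_zero_right] at this
      rw [inner_smul_right]
      linear_combination -this⟩
    intro h0
    rw [h0, Submodule.mem_bot] at h4
    exact hu.2 (hi (by rw [h4, map_zero]))
  · rw [spectrum.mem_resolventSet_iff, map_one] at h1
    exact absurd hs (h.resU (e ▸ U.isUnit.mul h1))

end Kit

end Vale.Agent.P371W
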