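import Mathlib.Analysis.InnerProductSpace.LinearPMap
import Mathlib.Analysis.InnerProductSpace.PiL2
import Mathlib.Analysis.Matrix.HermitianFunctionalCalculus
import Mathlib.Analysis.Matrix.PosDef
import Mathlib.Analysis.Calculus.ContDiff.Defs
import Mathlib.Analysis.Calculus.Deriv.Basic
import Mathlib.Analysis.SpecialFunctions.Gamma.Basic
import Mathlib.Data.Real.ENatENNReal
import Mathlib.MeasureTheory.Function.L2Space
import Mathlib.MeasureTheory.Measure.Lebesgue.Basic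
import Mathlib.SetTheory.Cardinal.ENat

/-!
The operator `H_W = -d²/dx² - W` on `L²(ℝ; ℂ^m)` as the self-adjoint operator of its form, the
trace of the power `γ` of its negative part, and the Lieb-Thirring constants.
-/

namespace Vale.Agent.P371V

open MeasureTheory Filter Topology
open scoped ENNReal ComplexOrder ContDiff

noncomputable section

section operators

variable {H : Type} [NormedAddCommGroup H] [InnerProductSpace ℂ H]

/-- The spectrum of an unbounded operator `A`: the numbers `z` such that `A - z` is not a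
bijection from the domain of `A` onto the space with a bounded inverse. -/
def spec (A : H →ₗ.[ℂ] H) : Set ℂ :=
  {z | ¬ ∃ R : H →L[ℂ] H, (∀ ψ : A.domain, R (A ψ - z • (ψ : H)) = ψ) ∧
    ∀ η : H, ∃ ψ : A.domain, A ψ - z • (ψ : H) = η}

/-- The eigenspace `ker (A - t)`: the vectors `ψ` in the domain of `A` with `A ψ = t ψ`. -/
def eig (A : H →ₗ.[ℂ] H) (t : ℝ) : Submodule ℂ H where
  carrier := {ψ | (ψ, (t : ℂ) • ψ) ∈ A.graph}
  add_mem' h1 h2 := by simpa [smul_add] using A.graph.add_mem h1 h2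
  zero_mem' := by
    change ((0 : H), (t : ℂ) • (0 : H)) ∈ A.graph
    rw [smul_zero]
    exact A.graph.zero_mem
  smul_mem' c ψ h := by simpa [smul_comm c] using A.graph.smul_mem c h

/-- The multiplicity of `t` as an eigenvalue of `A`: the dimension of the eigenspace, a natural
number or `∞` (it is `0` if `t` is not an eigenvalue). -/
def mult (A : H →ₗ.[ℂ] H) (t : ℝ) : ℕ∞ := (Module.rank ℂ (eig A t)).toENat

/-- `Tr A_-^γ = ∑_j |λ_j|^γ`, the sum over the negative eigenvalues with multiplicity. -/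
def trNeg (γ : ℝ) (A : H →ₗ.[ℂ] H) : ℝ≥0∞ :=
  ∑' t : Set.Iio (0 : ℝ), (mult A t : ℝ≥0∞) * ENNReal.ofReal (|t.1| ^ γ)

/-- `|λ_1|^γ` for the lowest negative eigenvalue `λ_1` of `A` (and `0` if there is none). -/
def lowest (γ : ℝ) (A : H →ₗ.[ℂ] H) : ℝ≥0∞ :=
  ⨆ (t : ℝ) (_ : IsLeast {s : ℝ | s < 0 ∧ eig A s ≠ ⊥} t), ENNReal.ofReal (|t| ^ γ)

/-- The form `q` with domain `D` is densely defined, bounded below and closed. -/
structure IsClosedForm (D : Set H) (q : H → H → ℂ) : Prop where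
  dense : Dense D
  low : ∃ c : ℝ, ∀ ψ ∈ D, c * ‖ψ‖ ^ 2 ≤ (q ψ ψ).re
  closed : ∀ (ψ : ℕ → H) (φ : H), (∀ n, ψ n ∈ D) → Tendsto ψ atTop (𝓝 φ) →
    Tendsto (fun p : ℕ × ℕ => q (ψ p.1 - ψ p.2) (ψ p.1 - ψ p.2)) atTop (𝓝 0) →
    φ ∈ D ∧ Tendsto (fun n => q (ψ n - φ) (ψ n - φ)) atTop (𝓝 0)

/-- The graph of the operator of the form: the pairs `(ψ, η)` with `ψ` in `D` and
`q φ ψ = ⟪φ, η⟫` for all `φ` in `D`. -/
def formGraph (D : Set H) (q : H → H → ℂ) : Set (H × H) :=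
  {p | p.1 ∈ D ∧ ∀ φ ∈ D, q φ p.1 = inner ℂ φ p.2}

/-- The operator of the form: the operator with graph `formGraph D q`. -/
def formOp (D : Set H) (q : H → H → ℂ) : H →ₗ.[ℂ] H :=
  (Submodule.span ℂ (formGraph D q)).toLinearPMap

/-- The form is densely defined, bounded below and closed; its operator has the graph
`formGraph D q` and is self-adjoint with real spectrum; the negative spectrum consists of
eigenvalues of finite multiplicity that accumulate at most at `0`. -/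
structure IsGoodForm [CompleteSpace H] (D : Set H) (q : H → H → ℂ) : Prop where
  closedForm : IsClosedForm D q
  graph : ((formOp D q).graph : Set (H × H)) = formGraph D q
  selfAdjoint : IsSelfAdjoint (formOp D q)
  real : ∀ z ∈ spec (formOp D q), z.im = 0
  eigen : ∀ t : ℝ, t < 0 →
    ((t : ℂ) ∈ spec (formOp D q) ↔ eig (formOp D q) t ≠ ⊥) ∧ mult (formOp D q) t < ⊤
  accum : ∀ ε : ℝ, 0 < ε → {t : ℝ | t ≤ -ε ∧ (t : ℂ) ∈ spec (formOp D q)}.Finite

end operators

section line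

/-- The space `L²(ℝ; E)`. -/
abbrev L2 (E : Type) [NormedAddCommGroup E] : Type := Lp E 2 (volume : Measure ℝ)

variable {E : Type} [NormedAddCommGroup E] [NormedSpace ℝ E]

/-- `χ` is the weak (distributional) derivative of `ψ`. -/
def IsWeakDeriv (ψ χ : L2 E) : Prop :=
  ∀ φ : ℝ → ℝ, ContDiff ℝ ∞ φ → HasCompactSupport φ →
    ∫ x, deriv φ x • ψ x = -∫ x, φ x • χ x

/-- The Sobolev space `H¹(ℝ; E)`: the weak derivative exists in `L²`. -/
def H1 (E : Type) [NormedAddCommGroup E] [NormedSpace ℝ E] : Set (L2 E) :=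
  {ψ | ∃ χ, IsWeakDeriv ψ χ}

/-- The weak derivative `ψ'` in `L²` of `ψ` in `H¹`. -/
def wd (ψ : L2 E) : L2 E := Classical.epsilon (IsWeakDeriv ψ)

variable [InnerProductSpace ℂ E]

/-- The sesquilinear form `∫ ⟨φ', ψ'⟩ - ∫ ⟨φ, V ψ⟩`. -/
def form (V : ℝ → E → E) (φ ψ : L2 E) : ℂ :=
  (∫ x, inner ℂ (wd φ x) (wd ψ x)) - ∫ x, inner ℂ (φ x) (V x (ψ x))

/-- The operator `H_V = -d²/dx² - V` on `L²(ℝ; E)`: the operator of the form on `H¹`. -/
def ham (V : ℝ → E → E) : L2 E →ₗ.[ℂ] L2 E := formOp (H1 E) (form V)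

/-- `Tr (H_V)_-^γ` -/
def trH (γ : ℝ) (V : ℝ → E → E) : ℝ≥0∞ := trNeg γ (ham V)

/-- `|λ_1|^γ` for the lowest negative eigenvalue of `H_V` -/
def lowH (γ : ℝ) (V : ℝ → E → E) : ℝ≥0∞ := lowest γ (ham V)

/-- The weak derivative is unique, the form of `H_V` is well defined on `H¹`, and it has the
properties `IsGoodForm`. -/
structure IsSchrodinger [CompleteSpace E] (V : ℝ → E → E) : Prop where
  unique : ∀ ψ χ : L2 E, IsWeakDeriv ψ χ → wd ψ = χ
  int : ∀ φ ∈ H1 E, ∀ ψ ∈ H1 E, Integrable fun x => (inner ℂ (φ x) (V x (ψ x)) : ℂ)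
  good : IsGoodForm (H1 E) (form V)

end line

variable {m : ℕ}

/-- The matrix `W x` acting on the vectors of `ℂ^m`. -/
def act (W : ℝ → Matrix (Fin m) (Fin m) ℂ) (x : ℝ) (v : EuclideanSpace ℂ (Fin m)) :
    EuclideanSpace ℂ (Fin m) :=
  WithLp.toLp 2 ((W x).mulVec v.ofLp)

/-- `tr (M ^ p)`, the power taken by functional calculus. -/
def trPow (p : ℝ) (M : Matrix (Fin m) (Fin m) ℂ) : ℝ := (cfc (fun t : ℝ => t ^ p) M).trace.re

/-- Potentials: Lebesgue measurable, positive semidefinite, with `∫ tr W^p < ∞`. -/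
structure Potential (p : ℝ) (W : ℝ → Matrix (Fin m) (Fin m) ℂ) : Prop where
  measurable : ∀ i j, AEMeasurable fun x => W x i j
  posSemidef : ∀ x, (W x).PosSemidef
  finite : ∫⁻ x, ENNReal.ofReal (trPow p (W x)) < ⊤

/-- The Lieb-Thirring constant `L_γ(m)`. -/
def LTconst (γ : ℝ) (m : ℕ) : ℝ≥0∞ :=
  ⨆ (W : ℝ → Matrix (Fin m) (Fin m) ℂ) (_ : Potential (γ + 1 / 2) W) (_ : ¬ W =ᵐ[volume] 0),
    trH γ (act W) / ENNReal.ofReal (∫ x, trPow (γ + 1 / 2) (W x))

/-- The one-bound-state constant `L^{(1)}_γ`. -/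
def LTone (γ : ℝ) : ℝ≥0∞ :=
  ⨆ (W : ℝ → Matrix (Fin 1) (Fin 1) ℂ) (_ : Potential (γ + 1 / 2) W) (_ : ¬ W =ᵐ[volume] 0),
    lowH γ (act W) / ENNReal.ofReal (∫ x, trPow (γ + 1 / 2) (W x))

/-- The semiclassical constant `L^{cl}_γ`. -/
def Lcl (γ : ℝ) : ℝ :=
  Real.Gamma (γ + 1) / (2 * Real.sqrt Real.pi * Real.Gamma (γ + 3 / 2))

end

end Vale.Agent.P371V
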