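import Vale.Agent.P371W95.Main
import Vale.Agent.P371W95.St

/-! The main theorem for the definitions of `St`. -/

set_option linter.all false

namespace Vale.Agent.P371V

open MeasureTheory

theorem lcl_int {γ : ℝ} (hγ : 0 < γ) :
    Lcl γ = 1 / (2 * Real.pi) * ∫ ξ : ℝ, max (1 - ξ ^ 2) 0 ^ γ := by
  have h1 : ∫ ξ : ℝ, max (1 - ξ ^ 2) 0 ^ γ = ∫ y in (-1 : ℝ)..1, (1 - y ^ 2) ^ (γ + 1 - 1) := by
    rw [← intervalIntegral.integral_eq_integral_of_support_subset (a := -1) (b := 1),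
      add_sub_cancel_right]
    · refine intervalIntegral.integral_congr fun x hx => ?_
      rw [Set.uIcc_of_le (by norm_num)] at hx
      rw [max_eq_left (by nlinarith [hx.1, hx.2])]
    · intro x hx
      by_contra h
      refine hx ?_
      simp only
      rw [max_eq_right, Real.zero_rpow hγ.ne']
      rcases not_and_or.1 h with h | h
      · nlinarith [not_lt.1 h]
      · nlinarith [not_le.1 h]
  have h2 := Real.Gamma_mul_Gamma_add_half (γ + 1)
  have h3 := Real.Gamma_pos_of_pos (show 0 < γ + 1 by linarith)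
  have h4 := Real.Gamma_pos_of_pos (show 0 < γ + 3 / 2 by linarith)
  have h5 := Real.Gamma_pos_of_pos (show 0 < 2 * (γ + 1) by linarith)
  have h6 := Real.sqrt_pos.2 Real.pi_pos
  have h7 : (4 : ℝ) ^ (γ + 1) * 2 ^ (1 - 2 * (γ + 1)) = 2 := by
    rw [show (4 : ℝ) = 2 ^ (2 : ℝ) by norm_num, ← Real.rpow_mul (by norm_num),
      ← Real.rpow_add (by norm_num)]
    norm_num
  rw [show γ + 1 + 1 / 2 = γ + 3 / 2 by ring] at h2
  rw [h1, P371.G.integral_one_sub_sq (by linarith), ProbabilityTheory.beta, ← two_mul, Lcl]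
  conv_rhs => rw [← Real.mul_self_sqrt Real.pi_pos.le]
  generalize Real.Gamma (γ + 1) = A, Real.Gamma (γ + 3 / 2) = B,
    Real.Gamma (2 * (γ + 1)) = C at *
  field_simp
  linear_combination (-(4 : ℝ) ^ (γ + 1)) * h2 - C * √Real.pi * h7

open scoped ComplexOrder in
theorem pot_iff {p : ℝ} (hp : 0 < p) {m : ℕ} (W : ℝ → Matrix (Fin m) (Fin m) ℂ) :
    Potential p W ↔ P371W.Potential p W := by
  have n : (∀ x, (W x).PosSemidef) → 0 ≤ᵐ[volume] fun x => P371W.trPow p (W x) := fun h =>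
    Filter.Eventually.of_forall fun x => by
      simp only [P371W.trPow_eq (h x)]
      exact P371.G.trPow_nonneg' (h x) p
  refine ⟨fun h => ⟨h.1, h.2, ?_, (hasFiniteIntegral_iff_ofReal (n h.2)).2 h.3⟩,
    fun h => ⟨h.1, h.2, (hasFiniteIntegral_iff_ofReal (n h.2)).1 h.3.2⟩⟩
  have c : Continuous fun M : {M : Fin m → Fin m → ℂ // Matrix.PosSemidef M} =>
      P371.trPow p M.1 := continuous_iff_continuousAt.2 fun M =>
    P371.G.tendsto_trPow (continuous_subtype_val.tendsto M)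
      (Filter.Eventually.of_forall fun N => N.2) M.2 hp
  have a : AEMeasurable fun x => (⟨W x, h.2 x⟩ : {M : Fin m → Fin m → ℂ // Matrix.PosSemidef M}) :=
    AEMeasurable.subtype_mk (aemeasurable_pi_lambda _ fun i => aemeasurable_pi_lambda _ (h.1 i))
  simp only [P371W.trPow_eq (h.2 _)]
  exact (c.measurable.comp_aemeasurable a).aestronglyMeasurable

theorem main (γ : ℝ) (hγ : 1 / 2 < γ) (hγ' : γ < 3 / 2) (m : ℕ) (hm : 1 ≤ m) :
    LTconst γ m = ENNReal.ofReal (2 * ((γ - 1 / 2) / (γ + 1 / 2)) ^ (γ - 1 / 2) * Lcl γ) ∧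
    LTconst γ m = LTconst γ 1 ∧ LTconst γ 1 = LTone γ ∧
    Lcl γ = 1 / (2 * Real.pi) * ∫ ξ : ℝ, max (1 - ξ ^ 2) 0 ^ γ ∧
    ∀ W : ℝ → Matrix (Fin m) (Fin m) ℂ, Potential (γ + 1 / 2) W →
      Integrable (fun x => trPow (γ + 1 / 2) (W x)) ∧ IsSchrodinger (act W) ∧
      trH γ (act W) ≤ ENNReal.ofReal (2 * ((γ - 1 / 2) / (γ + 1 / 2)) ^ (γ - 1 / 2) * Lcl γ *
        ∫ x, trPow (γ + 1 / 2) (W x)) ∧
      (trH γ (act W) = ENNReal.ofReal (2 * ((γ - 1 / 2) / (γ + 1 / 2)) ^ (γ - 1 / 2) * Lcl γ *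
          ∫ x, trPow (γ + 1 / 2) (W x)) ↔
        ∃ (U : Matrix (Fin m) (Fin m) ℂ) (a c : Fin m → ℝ), U ∈ Matrix.unitaryGroup (Fin m) ℂ ∧
          (∀ i, 0 ≤ a i) ∧ ∀ᵐ x : ℝ, W x = U * Matrix.diagonal (fun i =>
            (((γ - 1 / 2) * (γ + 1 / 2) * a i ^ 2 / Real.cosh (a i * (x - c i)) ^ 2 : ℝ) : ℂ)) *
            U.conjTranspose) := by
  have pot : ∀ {m : ℕ} (W : ℝ → Matrix (Fin m) (Fin m) ℂ),
      Potential (γ + 1 / 2) W = P371W.Potential (γ + 1 / 2) W := fun W =>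
    propext (pot_iff (by linarith) W)
  have c1 : ∀ m, LTconst γ m = P371W.LTconst γ m := fun m => by
    unfold LTconst P371W.LTconst
    simp only [pot]
    rfl
  have c2 : LTone γ = P371W.LTone γ := by
    unfold LTone P371W.LTone
    simp only [pot]
    rfl
  obtain ⟨a1, a2, a3, a4, a5⟩ := P371W.main γ hγ hγ' m hm
  rw [c1, c1, c2]
  refine ⟨a1, a2, a3, lcl_int (by linarith), fun W hW => ?_⟩
  obtain ⟨b1, b2, b3, b4, b5, b6, b7, b8⟩ := a5 W (pot W ▸ hW)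
  exact ⟨((pot_iff (by linarith) W).1 hW).3, ⟨a4, fun φ h1 ψ h2 => b1.int φ ψ h1 h2,
    ⟨b1.dense, b1.low, b1.closed⟩, b2, b3, b4, b5, b6⟩, b7, b8⟩

end Vale.Agent.P371V
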