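import Mathlib.Analysis.InnerProductSpace.GramSchmidtOrtho
import Mathlib.Analysis.InnerProductSpace.Subspace
import Vale.Agent.P371W95.Defs

/-! The sum over the negative eigenvalues with multiplicity is the supremum over finite
orthonormal systems of eigenvectors. -/

set_option linter.all false

namespace Vale.Agent.P371W

open Filter Topology
open scoped ENNReal

variable {H : Type} [NormedAddCommGroup H] [InnerProductSpace ℂ H] {A : H →ₗ.[ℂ] H} {γ : ℝ}

/-- the supremum over finite orthonormal systems of eigenvectors -/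
noncomputable def osup (γ : ℝ) (A : H →ₗ.[ℂ] H) : ℝ≥0∞ :=
  ⨆ (N : ℕ) (lam : Fin N → ℝ) (ψ : Fin N → H) (_ : ∀ j, lam j < 0 ∧ ψ j ∈ eig A (lam j))
    (_ : Orthonormal ℂ ψ), ∑ j, ENNReal.ofReal (|lam j| ^ γ)

theorem osup_le : osup γ A ≤ trNeg γ A := by
  classical
  refine iSup_le fun N => iSup_le fun lam => iSup_le fun ψ => iSup_le fun h => iSup_le fun ho => ?_
  set g : Fin N → Set.Iio (0 : ℝ) := fun j => ⟨lam j, (h j).1⟩ with hg
  have e := Finset.sum_comp (s := Finset.univ)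
    (fun t : Set.Iio (0 : ℝ) => ENNReal.ofReal (|t.1| ^ γ)) g
  refine le_trans (le_of_eq e) (le_trans (Finset.sum_le_sum fun t _ => ?_) (ENNReal.sum_le_tsum _))
  rw [nsmul_eq_mul]
  refine mul_le_mul_left ?_ _
  rw [← ENat.toENNReal_coe, ENat.toENNReal_le, mult, Cardinal.natCast_le_toENat]
  let v : {j // g j = t} → eig A t := fun j => ⟨ψ j, by
    have h2 : lam j = t := congrArg Subtype.val j.2
    exact h2 ▸ (h j).2⟩
  have hv : LinearIndependent ℂ v :=
    LinearIndependent.of_comp (eig A t).subtype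
      (ho.linearIndependent.comp Subtype.val Subtype.val_injective)
  have := hv.cardinal_le_rank
  rwa [Cardinal.mk_fintype, Fintype.card_subtype] at this

variable (hs : ∀ p q : H × H, p ∈ A.graph → q ∈ A.graph → inner ℂ p.2 q.1 = inner ℂ p.1 q.2)
include hs

theorem key (S : Finset (Set.Iio (0 : ℝ))) (n : Set.Iio (0 : ℝ) → ℕ)
    (hn : ∀ t, (n t : ℕ∞) ≤ mult A t) :
    ∑ t ∈ S, (n t : ℝ≥0∞) * ENNReal.ofReal (|t.1| ^ γ) ≤ osup γ A := by
  classical
  have h1 : ∀ t : S, ∃ e : Fin (n t) → eig A t.1, Orthonormal ℂ e := fun t => by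
    have := hn t
    rw [mult, Cardinal.natCast_le_toENat, Module.le_rank_iff] at this
    obtain ⟨v, hv⟩ := this
    exact ⟨_, InnerProductSpace.gramSchmidtNormed_orthonormal hv⟩
  choose e he using h1
  have h2 : OrthogonalFamily ℂ (fun t : S => eig A t.1) fun t => (eig A t.1).subtypeₗᵢ := by
    intro s t hst x y
    have h3 := hs _ _ x.2 y.2
    simp only [inner_smul_left, inner_smul_right, Complex.conj_ofReal] at h3
    have h4 : ((s.1.1 : ℂ) - t.1.1) ≠ 0 := by
      rw [sub_ne_zero, Ne, Complex.ofReal_inj]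
      exact fun h => hst (Subtype.ext (Subtype.ext h))
    exact (mul_eq_zero.1 (by linear_combination h3 :
      ((s.1.1 : ℂ) - t.1.1) * inner ℂ x.1 y.1 = 0)).resolve_left h4
  have h3 := h2.orthonormal_sigma_orthonormal he
  set E := (Fintype.equivFin (Σ t : S, Fin (n t))).symm with hE
  refine le_iSup_of_le _ <| le_iSup_of_le (fun j => (E j).1.1.1) <|
    le_iSup_of_le (fun j => (e (E j).1 (E j).2 : H)) <|
    le_iSup_of_le (fun j => ⟨(E j).1.1.2, (e (E j).1 (E j).2).2⟩) <|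
    le_iSup_of_le (h3.comp E E.injective) (le_of_eq ?_)
  rw [E.sum_comp (fun a => ENNReal.ofReal (|a.1.1.1| ^ γ)), Fintype.sum_sigma, ← Finset.sum_coe_sort]
  simp

theorem mult_lt (h : osup γ A ≠ ⊤) {t : ℝ} (ht : t < 0) : mult A t < ⊤ := by
  classical
  by_contra h0
  rw [not_lt, top_le_iff] at h0
  have hc : ENNReal.ofReal (|t| ^ γ) ≠ 0 := by
    rw [Ne, ENNReal.ofReal_eq_zero, not_le]
    exact Real.rpow_pos_of_pos (abs_pos.2 ht.ne) _
  refine h (top_le_iff.1 ?_)
  rw [← ENNReal.top_mul hc, ← ENNReal.iSup_natCast, ENNReal.iSup_mul]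
  refine iSup_le fun k => ?_
  have := key (γ := γ) hs {⟨t, ht⟩} (fun s => if s = ⟨t, ht⟩ then k else 0) (fun s => by
    split_ifs with h1
    · rw [h1, h0]; exact le_top
    · simp)
  simpa using this

theorem trNeg_eq : trNeg γ A = osup γ A := by
  refine le_antisymm ?_ osup_le
  by_cases h : osup γ A = ⊤
  · rw [h]; exact le_top
  rw [trNeg, ENNReal.tsum_eq_iSup_sum]
  refine iSup_le fun S => le_trans (le_of_eq ?_)
    (key hs S (fun t => (mult A t).toNat) fun t => ENat.coe_toNat_le_self _)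
  refine Finset.sum_congr rfl fun t _ => ?_
  rw [← ENat.toENNReal_coe, ENat.coe_toNat (mult_lt hs h t.2).ne]

omit hs

theorem finite_eig (hγ : 0 < γ) (h : trNeg γ A ≠ ⊤) {ε : ℝ} (hε : 0 < ε) :
    {t : ℝ | t ≤ -ε ∧ eig A t ≠ ⊥}.Finite := by
  have hc : ENNReal.ofReal (ε ^ γ) ≠ 0 := by
    rw [Ne, ENNReal.ofReal_eq_zero, not_le]
    exact Real.rpow_pos_of_pos hε _
  refine ((ENNReal.finite_const_le_of_tsum_ne_top h hc).image Subtype.val).subset ?_
  rintro t ⟨h1, h2⟩
  refine ⟨⟨t, show t < 0 by linarith⟩, ?_, rfl⟩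
  have h3 : (1 : ℝ≥0∞) ≤ mult A t := by
    rw [← ENat.toENNReal_one, ENat.toENNReal_le, mult, Cardinal.one_le_toENat,
      Cardinal.one_le_iff_ne_zero, Ne, Submodule.rank_eq_zero]
    exact h2
  have h4 : ENNReal.ofReal (ε ^ γ) ≤ ENNReal.ofReal (|t| ^ γ) :=
    ENNReal.ofReal_le_ofReal (Real.rpow_le_rpow hε.le (le_trans (by linarith) (neg_le_abs t)) hγ.le)
  exact h4.trans (le_mul_of_one_le_left' h3)

theorem lowest_eq (hγ : 0 < γ) (h : trNeg γ A ≠ ⊤) :
    lowest γ A = ⨆ (t : ℝ) (_ : t < 0 ∧ eig A t ≠ ⊥), ENNReal.ofReal (|t| ^ γ) := by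
  refine le_antisymm (iSup₂_le fun t ht => le_iSup₂_of_le t ht.1 le_rfl) (iSup₂_le fun t ht => ?_)
  obtain ⟨s, hs, hs'⟩ := Set.exists_min_image _ id (finite_eig hγ h (neg_pos.2 ht.1))
    ⟨t, by simp, ht.2⟩
  have h1 : s ≤ t := by simpa using hs.1
  refine le_iSup₂_of_le s ⟨⟨h1.trans_lt ht.1, hs.2⟩, fun u hu => ?_⟩
    (ENNReal.ofReal_le_ofReal (Real.rpow_le_rpow (abs_nonneg _) ?_ hγ.le))
  · rcases le_total u t with h2 | h2
    · exact hs' u ⟨by simpa using h2, hu.2⟩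
    · exact h1.trans h2
  · rw [abs_of_neg ht.1, abs_of_neg (h1.trans_lt ht.1)]
    linarith

end Vale.Agent.P371W
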