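import Mathlib.Analysis.Calculus.BumpFunction.Normed
import Mathlib.Analysis.Normed.Lp.SmoothApprox
import Mathlib.MeasureTheory.Function.Holder
import Vale.Agent.P371EF.Form
import Vale.Agent.P371EG.Eig
import Vale.Agent.P371W95.Abs

/-! Weak derivatives on the line: the continuous representative, and `H¹` as a Hilbert space. -/

set_option linter.all false

namespace Vale.Agent.P371W

open MeasureTheory Filter Topology Set
open Vale.Agent.P371 Vale.Agent.P371E
open scoped ContDiff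

noncomputable section

variable {m : ℕ}

theorem exists_R {φ : ℝ → ℝ} (h : HasCompactSupport φ) : ∃ R : ℝ, tsupport φ ⊆ Ioo (-R) R := by
  obtain ⟨R, hR⟩ := h.isCompact.isBounded.subset_ball 0
  exact ⟨R, by simpa [Real.ball_eq_Ioo] using hR⟩

theorem ii {F : ℝ → Vec m} (h : LocallyIntegrable F volume) (a b : ℝ) :
    IntervalIntegrable F volume a b :=
  (h.integrableOn_isCompact isCompact_uIcc).intervalIntegrable

theorem cont_of {F F' : ℝ → Vec m} (hF : ∀ a b, F b - F a = ∫ x in a..b, F' x)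
    (hl : LocallyIntegrable F' volume) : Continuous F := by
  have h : F = fun b => F 0 + ∫ x in (0 : ℝ)..b, F' x := by
    funext b
    rw [← hF 0 b]
    abel
  rw [h]
  exact continuous_const.add (intervalIntegral.continuous_primitive (ii hl) 0)

theorem ibp {F F' : ℝ → Vec m} (hF : ∀ a b, F b - F a = ∫ x in a..b, F' x)
    (hl : LocallyIntegrable F' volume) {φ : ℝ → ℝ} (h1 : ContDiff ℝ ∞ φ)
    (h2 : HasCompactSupport φ) : ∫ x, deriv φ x • F x = -∫ x, φ x • F' x := by
  have hc : Continuous (deriv φ) := h1.continuous_deriv (by simp)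
  have i1 := ((cont_of hF hl).locallyIntegrable (μ := volume)).integrable_smul_left_of_hasCompactSupport
    hc h2.deriv
  have i2 := hl.integrable_smul_left_of_hasCompactSupport h1.continuous h2
  obtain ⟨R, hR⟩ := exists_R h2
  rw [eq_neg_iff_add_eq_zero, ← integral_add i1 i2]
  refine SeparatingDual.eq_zero_of_forall_dual_eq_zero (R := ℝ) fun L => ?_
  have i3 : Integrable (fun x => deriv φ x • F x + φ x • F' x) volume := i1.add i2
  rw [← L.integral_comp_comm i3]
  have k := ibp_interval (u := fun x => L (F x)) (u' := fun x => L (F' x)) (h := φ) (h' := deriv φ)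
    (fun a b => by rw [L.intervalIntegral_comp_comm (ii hl a b), ← hF, map_sub])
    (fun a b => ⟨L.integrable_comp (ii hl a b).1, L.integrable_comp (ii hl a b).2⟩)
    (fun x => (h1.differentiable (by simp) x).hasDerivAt) hc (-R) R
  have z : ∀ x, x ∉ Ioo (-R) R → φ x = 0 := fun x hx =>
    image_eq_zero_of_notMem_tsupport fun h => hx (hR h)
  rw [z R (by simp), z (-R) (by simp), intervalIntegral.integral_eq_integral_of_support_subset] at k
  · simp only [mul_zero, sub_zero] at k
    rw [← k]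
    refine integral_congr_ae (Eventually.of_forall fun x => ?_)
    simp only [Pi.add_apply, map_add, map_smul, smul_eq_mul]
    ring
  · intro x hx
    by_contra h3
    have h4 : x ∉ tsupport φ := fun h => h3 (Ioo_subset_Ioc_self (hR h))
    exact hx (by simp [image_eq_zero_of_notMem_tsupport h4, deriv_of_notMem_tsupport h4])

theorem prim {k : ℝ → ℝ} (h1 : ContDiff ℝ ∞ k) (h2 : HasCompactSupport k) (h0 : ∫ x, k x = 0) :
    ∃ φ : ℝ → ℝ, ContDiff ℝ ∞ φ ∧ HasCompactSupport φ ∧ deriv φ = k := by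
  obtain ⟨R, hR⟩ := exists_R h2
  have z : ∀ x, x ∉ Ioo (-R) R → k x = 0 := fun x hx =>
    image_eq_zero_of_notMem_tsupport fun h => hx (hR h)
  have d : ∀ x, HasDerivAt (fun u => ∫ t in (-R)..u, k t) (k x) x := fun x =>
    (h1.continuous.integral_hasStrictDerivAt (-R) x).hasDerivAt
  have e : deriv (fun u => ∫ t in (-R)..u, k t) = k := funext fun x => (d x).deriv
  refine ⟨_, contDiff_infty_iff_deriv.2 ⟨fun x => (d x).differentiableAt, by rwa [e]⟩,
    HasCompactSupport.intro (isCompact_Icc (a := -R) (b := R)) fun x hx => ?_, e⟩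
  rcases le_total x (-R) with h | h
  · rw [intervalIntegral.integral_congr (g := fun _ => 0), intervalIntegral.integral_zero]
    intro t ht
    rw [uIcc_of_ge h] at ht
    exact z t fun h3 => absurd h3.1 (not_lt.2 ht.2)
  · rw [intervalIntegral.integral_eq_integral_of_support_subset, h0]
    intro t ht
    have h3 : t ∈ Ioo (-R) R := by by_contra h3; exact ht (z t h3)
    have h4 : R < x := by by_contra h4; exact hx ⟨h, not_lt.1 h4⟩
    exact ⟨h3.1, by linarith [h3.2]⟩

theorem dbr {u : ℝ → Vec m} (hu : LocallyIntegrable u volume)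
    (h : ∀ φ : ℝ → ℝ, ContDiff ℝ ∞ φ → HasCompactSupport φ → ∫ x, deriv φ x • u x = 0) :
    ∃ c, ∀ᵐ x, u x = c := by
  let b : ContDiffBump (0 : ℝ) := ⟨1, 2, one_pos, one_lt_two⟩
  have b1 : ContDiff ℝ ∞ (b.normed volume) := b.contDiff_normed
  have b2 : HasCompactSupport (b.normed volume) := b.hasCompactSupport_normed
  refine ⟨∫ x, b.normed volume x • u x,
    ae_eq_of_integral_contDiff_smul_eq hu (locallyIntegrable_const _) fun g g1 g2 => ?_⟩
  obtain ⟨φ, p1, p2, p3⟩ := prim (k := fun x => g x - (∫ y, g y) * b.normed volume x)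
    (g1.sub (contDiff_const.mul b1)) (g2.sub b2.mul_left) (by
      rw [integral_sub (g1.continuous.integrable_of_hasCompactSupport g2)
        (b.integrable_normed.const_mul _), integral_const_mul, b.integral_normed, mul_one, sub_self])
  have k := h φ p1 p2
  have i1 := hu.integrable_smul_left_of_hasCompactSupport g1.continuous g2
  have i2 := hu.integrable_smul_left_of_hasCompactSupport b1.continuous b2
  simp only [p3, sub_smul, mul_smul] at k
  have i3 : Integrable (fun x => (∫ y, g y) • b.normed volume x • u x) volume := i2.smul (∫ y, g y)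
  rw [integral_sub i1 i3, integral_smul, sub_eq_zero] at k
  rw [k, integral_smul_const]

theorem li (ψ : L2 m) : LocallyIntegrable ψ volume := (Lp.memLp ψ).locallyIntegrable (by norm_num)

theorem rep {ψ χ : L2 m} (h : IsWeakDeriv ψ χ) : ∃ f, IsH1 f χ ∧ f =ᵐ[volume] ψ := by
  have hF : ∀ a b : ℝ, (∫ t in (0 : ℝ)..b, χ t) - ∫ t in (0 : ℝ)..a, χ t = ∫ x in a..b, χ x :=
    fun a b => intervalIntegral.integral_interval_sub_left (ii (li χ) _ _) (ii (li χ) _ _)
  have cF := (cont_of hF (li χ)).locallyIntegrable (μ := volume)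
  obtain ⟨c, hc⟩ := dbr ((li ψ).sub cF) fun φ h1 h2 => by
    have hc : Continuous (deriv φ) := h1.continuous_deriv (by simp)
    simp only [Pi.sub_apply, smul_sub]
    rw [integral_sub ((li ψ).integrable_smul_left_of_hasCompactSupport hc h2.deriv)
      (cF.integrable_smul_left_of_hasCompactSupport hc h2.deriv), h φ h1 h2,
      ibp hF (li χ) h1 h2, sub_self]
  have e : (fun x => (∫ t in (0 : ℝ)..x, χ t) + c) =ᵐ[volume] ψ := by
    filter_upwards [hc] with x hx
    rw [← hx, Pi.sub_apply, add_sub_cancel]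
  exact ⟨_, ⟨(Lp.memLp ψ).ae_eq e.symm, Lp.memLp χ, fun a b => by rw [← hF a b]; abel⟩, e⟩

theorem wd_of {f f' : ℝ → Vec m} (h : IsH1 f f') {ψ χ : L2 m} (h1 : ψ =ᵐ[volume] f)
    (h2 : χ =ᵐ[volume] f') : IsWeakDeriv ψ χ := fun φ p1 p2 => by
  have e1 : ∫ x, deriv φ x • ψ x = ∫ x, deriv φ x • f x :=
    integral_congr_ae (by filter_upwards [h1] with x hx; rw [hx])
  have e2 : ∫ x, φ x • χ x = ∫ x, φ x • f' x :=
    integral_congr_ae (by filter_upwards [h2] with x hx; rw [hx])
  rw [e1, e2, ibp h.ftc h.locallyIntegrable_deriv p1 p2]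

theorem wd_eq {ψ χ : L2 m} (h : IsWeakDeriv ψ χ) : wd ψ = χ := by
  have k : IsWeakDeriv ψ (wd ψ) := Classical.epsilon_spec ⟨χ, h⟩
  refine Lp.ext (ae_eq_of_integral_contDiff_smul_eq (li _) (li _) fun φ p1 p2 => ?_)
  exact neg_injective ((k φ p1 p2).symm.trans (h φ p1 p2))

theorem exI {φ : ℝ → ℝ} (h1 : Continuous φ) (h2 : HasCompactSupport φ) :
    ∃ I : L2 m →L[ℂ] Vec m, ∀ ψ : L2 m, ∫ x, φ x • ψ x = I ψ := by
  have h : MemLp (fun x => (φ x : ℂ)) 2 volume := (h1.memLp_of_hasCompactSupport h2).ofReal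
  refine ⟨(ContinuousLinearMap.lsmul ℂ ℂ).lpPairing volume 2 2 h.toLp, fun ψ => ?_⟩
  rw [ContinuousLinearMap.lpPairing_eq_integral]
  refine integral_congr_ae ?_
  filter_upwards [h.coeFn_toLp] with x hx
  rw [hx, ContinuousLinearMap.lsmul_apply, Complex.coe_smul]

/-- `H¹` as the graph of the weak derivative -/
def HS (m : ℕ) : Submodule ℂ (WithLp 2 (L2 m × L2 m)) where
  carrier := {p | IsWeakDeriv p.fst p.snd}
  add_mem' {p q} hp hq φ h1 h2 := by
    obtain ⟨I, hI⟩ := exI (m := m) h1.continuous h2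
    obtain ⟨K, hK⟩ := exI (m := m) (h1.continuous_deriv (by simp)) h2.deriv
    have a := hp φ h1 h2
    have b := hq φ h1 h2
    rw [hI, hK] at a b ⊢
    rw [WithLp.add_fst, WithLp.add_snd, map_add, map_add, a, b, neg_add]
  zero_mem' φ h1 h2 := by
    obtain ⟨I, hI⟩ := exI (m := m) h1.continuous h2
    obtain ⟨K, hK⟩ := exI (m := m) (h1.continuous_deriv (by simp)) h2.deriv
    rw [hI, hK, WithLp.zero_fst, WithLp.zero_snd, map_zero, map_zero, neg_zero]
  smul_mem' c p hp φ h1 h2 := by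
    obtain ⟨I, hI⟩ := exI (m := m) h1.continuous h2
    obtain ⟨K, hK⟩ := exI (m := m) (h1.continuous_deriv (by simp)) h2.deriv
    have a := hp φ h1 h2
    rw [hI, hK] at a ⊢
    rw [WithLp.smul_fst, WithLp.smul_snd, map_smul, map_smul, a, smul_neg]

theorem complete (m : ℕ) : CompleteSpace (HS m) := by
  refine IsClosed.completeSpace_coe (hs := ?_)
  change IsClosed {p : WithLp 2 (L2 m × L2 m) | ∀ φ : ℝ → ℝ, ContDiff ℝ ∞ φ →
    HasCompactSupport φ → ∫ x, deriv φ x • p.fst x = -∫ x, φ x • p.snd x}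
  simp only [setOf_forall]
  refine isClosed_iInter fun φ => isClosed_iInter fun h1 => isClosed_iInter fun h2 => ?_
  obtain ⟨I, hI⟩ := exI (m := m) h1.continuous h2
  obtain ⟨K, hK⟩ := exI (m := m) (h1.continuous_deriv (by simp)) h2.deriv
  simp only [hI, hK]
  exact isClosed_eq (K.continuous.comp (WithLp.fstL 2 ℂ _ _).continuous)
    (I.continuous.comp (WithLp.sndL 2 ℂ _ _).continuous).neg

/-- the embedding of `H¹` in `L²` -/
def JH (m : ℕ) : HS m →L[ℂ] L2 m := WithLp.fstL 2 ℂ _ _ ∘L (HS m).subtypeL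

theorem JH_apply (u : HS m) : JH m u = u.1.fst := rfl

theorem wd_JH (u : HS m) : wd (JH m u) = u.1.snd := wd_eq u.2

theorem inH1_iff {ψ : L2 m} : InH1 ψ ↔ ∃ u, JH m u = ψ :=
  ⟨fun ⟨χ, h⟩ => ⟨⟨WithLp.toLp 2 (ψ, χ), h⟩, rfl⟩, fun ⟨u, h⟩ => h ▸ ⟨_, u.2⟩⟩

theorem inner_HS (u v : HS m) :
    inner ℂ u v = inner ℂ (JH m u) (JH m v) + inner ℂ u.1.snd v.1.snd := rfl

theorem norm_HS (u : HS m) : ‖u‖ ^ 2 = ‖JH m u‖ ^ 2 + ‖u.1.snd‖ ^ 2 :=
  WithLp.prod_norm_sq_eq_of_L2 u.1

theorem JH_le (u : HS m) : ‖JH m u‖ ≤ ‖u‖ := WithLp.norm_fst_le _ u.1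

theorem JH_inj : Function.Injective (JH m) := fun u v h => by
  have h2 : u.1.snd = v.1.snd := by rw [← wd_JH, ← wd_JH, h]
  exact Subtype.ext (WithLp.ofLp_injective 2 (Prod.ext h h2))

theorem JH_dense : DenseRange (JH m) := by
  refine (Lp.dense_hasCompactSupport_contDiff (p := 2) (by simp)).mono ?_
  rintro ψ ⟨g, e, g2, g1⟩
  have hc : Continuous (deriv g) := g1.continuous_deriv (by simp)
  have h : IsH1 g (deriv g) := ⟨g1.continuous.memLp_of_hasCompactSupport g2,
    hc.memLp_of_hasCompactSupport g2.deriv, fun a b => (intervalIntegral.integral_deriv_eq_sub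
      (fun x _ => g1.differentiable (by simp) x) (hc.intervalIntegrable _ _)).symm⟩
  exact inH1_iff.1 ⟨_, wd_of h e h.memLp_deriv.coeFn_toLp⟩

theorem int_sq (ψ : L2 m) : ∫ x, ‖ψ x‖ ^ 2 = ‖ψ‖ ^ 2 := by
  have h := integral_inner_self ψ
  rw [← L2.inner_def, inner_self_eq_norm_sq_to_K] at h
  refine Complex.ofReal_injective (h.symm.trans ?_)
  simp

/-- the continuous representative -/
def rp (u : HS m) : ℝ → Vec m := (rep u.2).choose

theorem rp_h1 (u : HS m) : IsH1 (rp u) u.1.snd := (rep u.2).choose_spec.1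

theorem rp_ae (u : HS m) : rp u =ᵐ[volume] JH m u := (rep u.2).choose_spec.2

theorem rp_le (u : HS m) (x : ℝ) : ‖rp u x‖ ≤ ‖u‖ := by
  have h := P371EF.sup_sq_le (rp_h1 u) x
  have e : ∫ x, ‖rp u x‖ ^ 2 = ∫ x, ‖JH m u x‖ ^ 2 :=
    integral_congr_ae (by filter_upwards [rp_ae u] with x hx; rw [hx])
  rw [e, int_sq, int_sq, add_comm, ← norm_HS] at h
  exact le_of_sq_le_sq h (norm_nonneg _)

/-- evaluation at a point -/
def ev (x : ℝ) : HS m →L[ℂ] Vec m :=
  LinearMap.mkContinuous
    { toFun := fun u => rp u x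
      map_add' := fun u v => by
        refine congrFun (((rp_h1 (u + v)).continuous.ae_eq_iff_eq volume
          ((rp_h1 u).continuous.add (rp_h1 v).continuous)).1 ?_) x
        filter_upwards [rp_ae (u + v), rp_ae u, rp_ae v, Lp.coeFn_add (JH m u) (JH m v)]
          with y h1 h2 h3 h4
        rw [h1, Pi.add_apply, h2, h3, map_add, h4, Pi.add_apply]
      map_smul' := fun c u => by
        refine congrFun (((rp_h1 (c • u)).continuous.ae_eq_iff_eq volume
          ((rp_h1 u).continuous.const_smul c)).1 ?_) x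
        filter_upwards [rp_ae (c • u), rp_ae u, Lp.coeFn_smul c (JH m u)] with y h1 h2 h3
        rw [h1, Pi.smul_apply, h2, map_smul, h3, Pi.smul_apply] } 1 fun u => by
    rw [one_mul]; exact rp_le u x

theorem ev_apply (x : ℝ) (u : HS m) : ev x u = rp u x := rfl

theorem ev_le (x : ℝ) : ‖(ev x : HS m →L[ℂ] Vec m)‖ ≤ 1 :=
  LinearMap.mkContinuous_norm_le _ zero_le_one _

theorem ev_sub {δ : ℝ} (hδ : 0 < δ) {x y : ℝ} (h : y ≤ x) :
    ‖(ev x - ev y : HS m →L[ℂ] Vec m)‖ ≤ (x - y) / δ + δ := by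
  refine ContinuousLinearMap.opNorm_le_of_unit_norm (by have := sub_nonneg.2 h; positivity)
    fun u hu => ?_
  have i2 := integrable_norm_sq (Lp.memLp u.1.snd)
  have h1 : ‖u.1.snd‖ ^ 2 ≤ 1 := by
    have := norm_HS u
    rw [hu] at this
    nlinarith [sq_nonneg ‖JH m u‖]
  change ‖rp u x - rp u y‖ ≤ _
  rw [(rp_h1 u).ftc]
  refine (intervalIntegral.norm_integral_le_integral_norm h).trans ?_
  calc ∫ t in y..x, ‖u.1.snd t‖ ≤ ∫ t in y..x, (1 / δ + δ * ‖u.1.snd t‖ ^ 2) := by
        refine intervalIntegral.integral_mono_on h (ii (li _) _ _).norm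
          (intervalIntegrable_const.add (i2.intervalIntegrable.const_mul _)) fun t _ => ?_
        rw [div_add' _ _ _ hδ.ne', le_div_iff₀ hδ]
        nlinarith [sq_nonneg (δ * ‖u.1.snd t‖ - 1), sq_nonneg (δ * ‖u.1.snd t‖)]
    _ = (x - y) / δ + δ * ∫ t in y..x, ‖u.1.snd t‖ ^ 2 := by
        rw [intervalIntegral.integral_add intervalIntegrable_const
          (i2.intervalIntegrable.const_mul _), intervalIntegral.integral_const_mul]
        simp [div_eq_mul_inv]
    _ ≤ (x - y) / δ + δ * 1 := by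
        gcongr
        rw [intervalIntegral.integral_of_le h]
        exact (setIntegral_le_integral i2 (Eventually.of_forall fun x => by positivity)).trans
          ((int_sq _).trans_le h1)
    _ = _ := by rw [mul_one]

theorem cont_of_sub {X : Type} [NormedAddCommGroup X] {f : ℝ → X}
    (hf : ∀ δ : ℝ, 0 < δ → ∀ x y : ℝ, y ≤ x → ‖f x - f y‖ ≤ (x - y) / δ + δ) : Continuous f := by
  refine Metric.continuous_iff.2 fun y ε hε => ⟨(ε / 2) ^ 2, by positivity, fun x hx => ?_⟩
  have k : ∀ a b : ℝ, b ≤ a → a - b < (ε / 2) ^ 2 → ‖f a - f b‖ < ε := fun a b h1 h2 => by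
    refine (hf _ (half_pos hε) _ _ h1).trans_lt ?_
    have : (a - b) / (ε / 2) < ε / 2 := by rw [div_lt_iff₀ (half_pos hε)]; nlinarith
    linarith
  rw [Real.dist_eq, abs_lt] at hx
  rw [dist_eq_norm]
  rcases le_total y x with h | h
  · exact k x y h hx.2
  · rw [norm_sub_rev]
    exact k y x h (by linarith [hx.1])

theorem ev_cont : Continuous (ev : ℝ → HS m →L[ℂ] Vec m) :=
  cont_of_sub (X := HS m →L[ℂ] Vec m) fun δ hδ x y h => ev_sub hδ h

end

end Vale.Agent.P371W
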