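import Mathlib.Analysis.Convex.Integral
import Vale.Agent.P371W95.Sob

/-! The potential as a compact operator on `H¹`, and the operator of the form. -/

set_option linter.all false

namespace Vale.Agent.P371W

open MeasureTheory Filter Topology Set ContinuousLinearMap
open Vale.Agent.P371 Vale.Agent.P371E
open scoped ComplexOrder MatrixOrder Matrix.Norms.L2Operator ComplexConjugate

noncomputable section

variable {m : ℕ} {p : ℝ} {W : ℝ → Mat m m}

section abs

variable {X : Type} [NormedAddCommGroup X] [InnerProductSpace ℂ X] [CompleteSpace X]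

theorem cpt_lim {V : X →L[ℂ] X}
    (h : ∀ ε : ℝ, 0 < ε → ∃ K : X →L[ℂ] X, IsCompactOperator K ∧
      ∀ u v, ‖inner ℂ u (V v) - inner ℂ u (K v)‖ ≤ ε * ‖u‖ * ‖v‖) : IsCompactOperator V := by
  refine isClosed_setOfPred_isCompactOperator.closure_subset
    (Metric.mem_closure_iff.2 fun ε hε => ?_)
  obtain ⟨K, h1, h2⟩ := h _ (half_pos hε)
  refine ⟨K, h1, ?_⟩
  rw [dist_eq_norm]
  refine (norm_le_of_inner (half_pos hε).le fun u v => ?_).trans_lt (half_lt_self hε)
  rw [sub_apply, inner_sub_right]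
  exact h2 u v

theorem cpt_int {e : ℝ → X →L[ℂ] Vec m} (hc : Continuous e) (hb : ∀ x, ‖e x‖ ≤ 1)
    (hW : LocallyIntegrable W volume) {a b : ℝ} (hab : a < b) :
    ∃ K : X →L[ℂ] X, IsCompactOperator K ∧ ∀ u v, inner ℂ u (K v) =
      ∫ x in Ioc a b, inner ℂ (e x u) (Matrix.toEuclideanLin (W x) (e x v)) := by
  set T : ℝ × Mat m m → X →L[ℂ] X := fun q =>
    adjoint (e q.1) ∘L (Matrix.toEuclideanCLM (n := Fin m) (𝕜 := ℂ) q.2 ∘L e q.1) with hT
  have c1 : Continuous (Matrix.toEuclideanCLM (n := Fin m) (𝕜 := ℂ)) :=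
    LinearMap.continuous_of_finiteDimensional
      (Matrix.toEuclideanCLM (n := Fin m) (𝕜 := ℂ)).toAlgEquiv.toLinearMap
  have c2 : Continuous T := (adjoint.continuous.comp (hc.comp continuous_fst)).clm_comp
    ((c1.comp continuous_snd).clm_comp (hc.comp continuous_fst))
  have i1 : IntegrableOn W (Ioc a b) volume :=
    (hW.integrableOn_isCompact isCompact_Icc).mono_set Ioc_subset_Icc_self
  have i2 : IntegrableOn (fun x => T (x, W x)) (Ioc a b) volume := by
    refine i1.norm.mono' (c2.comp_aestronglyMeasurable (aestronglyMeasurable_id.prodMk i1.1))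
      (Eventually.of_forall fun x => ?_)
    refine (opNorm_comp_le _ _).trans ?_
    rw [LinearIsometryEquiv.norm_map]
    refine (mul_le_of_le_one_left (norm_nonneg _) (hb x)).trans ((opNorm_comp_le _ _).trans ?_)
    exact mul_le_of_le_one_right (norm_nonneg _) (hb x)
  refine ⟨∫ x in Ioc a b, T (x, W x), ?_, fun u v => ?_⟩
  · have k := Convex.set_average_mem
      ((compactOperator (RingHom.id ℂ) X X).restrictScalars ℝ).convex
      isClosed_setOfPred_isCompactOperator (t := Ioc a b) (μ := volume) (by simpa using hab)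
      (by simp) (Eventually.of_forall fun x => (isCompactOperator_of_locallyCompactSpace_dom
        (Matrix.toEuclideanCLM (n := Fin m) (𝕜 := ℂ) (W x) ∘L e x)).clm_comp (adjoint (e x))) i2
    rw [← measure_smul_setAverage _ (by simp)]
    exact ((compactOperator (RingHom.id ℂ) X X).restrictScalars ℝ).smul_mem _ k
  · rw [integral_apply i2, ← integral_inner (i2.apply_continuousLinearMap v)]
    refine integral_congr_ae (Eventually.of_forall fun x => ?_)
    simp only [hT, comp_apply, adjoint_inner_right]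
    rfl

end abs

theorem cs (φ ψ : L2 m) : ∫ x, ‖φ x‖ * ‖ψ x‖ ≤ ‖φ‖ * ‖ψ‖ := by
  have h := integral_mul_norm_le_Lp_mul_Lq Real.HolderConjugate.two_two
    (by simpa using Lp.memLp φ) (by simpa using Lp.memLp ψ)
  simp only [Real.rpow_two, int_sq, ← Real.sqrt_eq_rpow, Real.sqrt_sq (norm_nonneg _)] at h
  exact h

/-- the density of the potential energy -/
def pd (W : ℝ → Mat m m) (u v : HS m) (x : ℝ) : ℂ :=
  inner ℂ (ev x u) (Matrix.toEuclideanLin (W x) (ev x v))

theorem pd_int (hp : 1 ≤ p) (hW : IsPotential p W) (u v : HS m) : Integrable (pd W u v) volume :=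
  P371EF.integrable_formW hp hW (rp_h1 u) (rp_h1 v)

theorem pd_ae (W : ℝ → Mat m m) (u v : HS m) : pd W u v =ᵐ[volume]
    fun x => inner ℂ (JH m u x) (Matrix.toEuclideanLin (W x) (JH m v x)) := by
  filter_upwards [rp_ae u, rp_ae v] with x h1 h2
  rw [pd, ev_apply, ev_apply, h1, h2]

theorem pd_le (hp : 1 ≤ p) (hW : IsPotential p W) {M : ℝ} (hM : 0 < M) (S : Set ℝ) (u v : HS m) :
    ‖∫ x in S, pd W u v x‖ ≤ m * M * (‖JH m u‖ * ‖JH m v‖) +
      M ^ (1 - p) * (‖u‖ * ‖v‖) * ∫ x in S, P371.trPow p (W x) := by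
  have h1 : Integrable (fun x => ‖rp u x‖ * ‖rp v x‖) volume :=
    (rp_h1 u).memLp.norm.integrable_mul (rp_h1 v).memLp.norm
  have h2 : ∫ x in S, ‖rp u x‖ * ‖rp v x‖ ≤ ‖JH m u‖ * ‖JH m v‖ := by
    refine (setIntegral_le_integral h1 (Eventually.of_forall fun x => by positivity)).trans
      (le_trans (le_of_eq (integral_congr_ae ?_)) (cs _ _))
    filter_upwards [rp_ae u, rp_ae v] with x h1 h2
    rw [h1, h2]
  refine (norm_integral_le_of_norm_le ((h1.integrableOn.const_mul ((m : ℝ) * M)).add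
    (hW.integrable.integrableOn.const_mul (M ^ (1 - p) * (‖u‖ * ‖v‖))))
    (Eventually.of_forall fun x => P371EF.form_le hp hM (hW.posSemidef x) (rp u x) (rp v x)
      (rp_le u x) (rp_le v x))).trans ?_
  simp only [Pi.add_apply]
  rw [integral_add (h1.integrableOn.const_mul _) (hW.integrable.integrableOn.const_mul _),
    integral_const_mul, integral_const_mul]
  gcongr

attribute [local instance] complete

theorem exists_V (hp : 1 ≤ p) (hW : IsPotential p W) : ∃ V : HS m →L[ℂ] HS m,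
    IsCompactOperator V ∧ ∀ u v, inner ℂ u (V v) = ∫ x, pd W u v x := by
  have hI : ∀ S : Set ℝ, 0 ≤ ∫ x in S, P371.trPow p (W x) := fun S =>
    integral_nonneg fun x => G.trPow_nonneg' (hW.posSemidef x) _
  have hb : ∀ {M : ℝ}, 0 < M → ∀ (S : Set ℝ) (u v : HS m), ‖∫ x in S, pd W u v x‖ ≤
      (m * M + M ^ (1 - p) * ∫ x in S, P371.trPow p (W x)) * ‖u‖ * ‖v‖ := fun {M} hM S u v => by
    refine (pd_le hp hW hM S u v).trans ?_
    have : ‖JH m u‖ * ‖JH m v‖ ≤ ‖u‖ * ‖v‖ :=
      mul_le_mul (JH_le u) (JH_le v) (norm_nonneg _) (norm_nonneg _)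
    have h2 : (m : ℝ) * M * (‖JH m u‖ * ‖JH m v‖) ≤ m * M * (‖u‖ * ‖v‖) := by gcongr
    linarith
  obtain ⟨V, hV⟩ := exists_op (W := HS m) (fun u v => ∫ x, pd W u v x)
    (fun u v w => by
      rw [← integral_add (pd_int hp hW u v) (pd_int hp hW u w)]
      simp only [pd, map_add, inner_add_right])
    (fun c u v => by simp only [pd, map_smul, inner_smul_right, integral_const_mul])
    (fun u v => by
      rw [← integral_conj]
      refine integral_congr_ae (Eventually.of_forall fun x => ?_)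
      simp only [pd, inner_conj_symm]
      exact Matrix.isSymmetric_toEuclideanLin_iff.2 (hW.posSemidef x).isHermitian _ _)
    (fun u v => by simpa only [Measure.restrict_univ] using hb one_pos univ u v)
  refine ⟨V, cpt_lim fun ε hε => ?_, hV⟩
  set M : ℝ := ε / 2 / (m + 1) with hM
  have M0 : 0 < M := by positivity
  have M1 : m * M ≤ ε / 2 := by
    rw [hM, mul_div_assoc', div_le_iff₀ (by positivity)]
    nlinarith
  have t1 := intervalIntegral_tendsto_integral hW.integrable tendsto_neg_atTop_atBot tendsto_id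
  have t2 := (t1.const_sub (∫ x, P371.trPow p (W x))).const_mul (M ^ (1 - p))
  rw [sub_self, mul_zero] at t2
  obtain ⟨n, n1, n2⟩ := ((eventually_gt_atTop 0).and (t2.eventually (ge_mem_nhds (half_pos hε)))).exists
  obtain ⟨K, k1, k2⟩ := cpt_int (X := HS m) ev_cont ev_le (G.locInt hp hW) (show -n < n by linarith)
  refine ⟨K, k1, fun u v => ?_⟩
  rw [hV, k2, ← integral_add_compl (measurableSet_Ioc (a := -n) (b := n)) (pd_int hp hW u v)]
  change ‖(∫ x in Ioc (-n) n, pd W u v x) + _ - ∫ x in Ioc (-n) n, pd W u v x‖ ≤ _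
  rw [add_sub_cancel_left]
  refine (hb M0 _ u v).trans ?_
  rw [intervalIntegral.integral_of_le (by simp only [id]; linarith),
    ← integral_add_compl (measurableSet_Ioc (a := -n) (b := n)) hW.integrable] at n2
  simp only [id, add_sub_cancel_left] at n2
  gcongr
  linarith

theorem form_JH (W : ℝ → Mat m m) (u v : HS m) : form W (JH m u) (JH m v) =
    inner ℂ u v - inner ℂ (JH m u) (JH m v) - ∫ x, pd W u v x := by
  rw [form, wd_JH, wd_JH, ← L2.inner_def, inner_HS, integral_congr_ae (pd_ae W u v)]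
  ring

theorem exists_kit (hp : 1 < p) (hW : IsPotential p W) :
    ∃ V B : HS m →L[ℂ] HS m, IsCompactOperator V ∧ Kit (JH m) B (ham W) ∧
      (∀ u v, inner ℂ v (B u) = inner ℂ v u - inner ℂ (JH m v) (JH m u) - inner ℂ v (V u)) ∧
      (∀ u v, form W (JH m u) (JH m v) = inner ℂ u (B v)) ∧
      ((ham W).graph : Set (L2 m × L2 m)) = formGraph W := by
  obtain ⟨V, hc, hV⟩ := exists_V hp.le hW
  set B : HS m →L[ℂ] HS m := 1 - adjoint (JH m) ∘L JH m - V with hB
  have e : ∀ u v, inner ℂ v (B u) = inner ℂ v u - inner ℂ (JH m v) (JH m u) - inner ℂ v (V u) :=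
    fun u v => by
      simp only [hB, sub_apply, comp_apply, inner_sub_right, adjoint_inner_right]
      rfl
  have f : ∀ u v, form W (JH m u) (JH m v) = inner ℂ u (B v) := fun u v => by
    rw [form_JH, e, hV]
  have g : ∀ q, q ∈ formGraph W ↔
      ∃ u, JH m u = q.1 ∧ ∀ v, inner ℂ v (B u) = inner ℂ (JH m v) q.2 := fun q => by
    constructor
    · rintro ⟨h1, h2⟩
      obtain ⟨u, hu⟩ := inH1_iff.1 h1
      exact ⟨u, hu, fun v => by rw [← f, hu, h2 _ (inH1_iff.2 ⟨v, rfl⟩)]⟩
    · rintro ⟨u, hu, h2⟩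
      refine ⟨inH1_iff.2 ⟨u, hu⟩, fun φ hφ => ?_⟩
      obtain ⟨v, rfl⟩ := inH1_iff.1 hφ
      rw [← hu, f, h2]
  have gr : ((ham W).graph : Set (L2 m × L2 m)) = formGraph W := graph_span JH_dense JH_inj g
  refine ⟨V, B, hc, ⟨JH_dense, fun u v => ?_, ?_, fun q => ?_⟩, e, f, gr⟩
  · have c1 := inner_conj_symm (𝕜 := ℂ) (E := HS m) u v
    have c2 := inner_conj_symm (𝕜 := ℂ) (E := HS m) (B u) v
    rw [← c2, e, e, map_sub, map_sub, c1, inner_conj_symm, hV, hV, ← integral_conj]
    congr 2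
    funext x
    simp only [pd, inner_conj_symm]
    exact Matrix.isSymmetric_toEuclideanLin_iff.2 (hW.posSemidef x).isHermitian _ _
  · obtain ⟨M, M0, M1⟩ := P371EF.exists_M hp (∫ x, P371.trPow p (W x))
    refine ⟨1 / 2, by norm_num, 1 + m * M, by positivity, fun u => ?_⟩
    have h1 := pd_le hp.le hW M0 univ u u
    rw [Measure.restrict_univ, ← hV] at h1
    have h2 := (Complex.re_le_norm _).trans h1
    have h3 := mul_le_mul_of_nonneg_left M1 (mul_self_nonneg ‖u‖)
    rw [e, Complex.sub_re, Complex.sub_re]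
    have h4 : (inner ℂ u u).re = ‖u‖ ^ 2 := inner_self_eq_norm_sq (𝕜 := ℂ) u
    have h5 : (inner ℂ (JH m u) (JH m u)).re = ‖JH m u‖ ^ 2 := inner_self_eq_norm_sq (𝕜 := ℂ) _
    rw [h4, h5]
    nlinarith
  · rw [← g, ← gr]
    rfl

end

end Vale.Agent.P371W
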