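import Vale.Agent.P371EF.Main
import Vale.Agent.P371W95.Cnt
import Vale.Agent.P371W95.Pot

/-! The sharp Lieb-Thirring constants for the self-adjoint operator of the form. -/

set_option linter.all false

namespace Vale.Agent.P371W

open MeasureTheory Filter Topology Set
open Vale.Agent.P371 Vale.Agent.P371E
open scoped ComplexOrder ENNReal

noncomputable section

variable {m : ℕ} {p γ : ℝ} {W W' : ℝ → Mat m m}

attribute [local instance] complete

theorem inner_ae {f g : ℝ → Vec m} {φ ψ : L2 m} (h1 : φ =ᵐ[volume] g) (h2 : ψ =ᵐ[volume] f) :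
    inner ℂ φ ψ = ∫ x, inner ℂ (g x) (f x) := by
  rw [L2.inner_def]
  refine integral_congr_ae ?_
  filter_upwards [h1, h2] with x a b
  rw [a, b]

theorem form_ae {f f' g g' : ℝ → Vec m} (hg : IsH1 g g') (hf : IsH1 f f') {φ ψ : L2 m}
    (h1 : φ =ᵐ[volume] g) (h2 : ψ =ᵐ[volume] f) : form W φ ψ = (∫ x, inner ℂ (g' x) (f' x)) -
      ∫ x, inner ℂ (g x) (Matrix.toEuclideanLin (W x) (f x)) := by
  rw [form, wd_eq (wd_of hg h1 hg.memLp_deriv.coeFn_toLp),
    wd_eq (wd_of hf h2 hf.memLp_deriv.coeFn_toLp), ← L2.inner_def,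
    inner_ae hg.memLp_deriv.coeFn_toLp hf.memLp_deriv.coeFn_toLp]
  congr 1
  refine integral_congr_ae ?_
  filter_upwards [h1, h2] with x a b
  rw [a, b]

section gr

variable (gr : ((ham W).graph : Set (L2 m × L2 m)) = formGraph W)
include gr

theorem mem_eig {t : ℝ} {ψ : L2 m} : ψ ∈ eig (ham W) t ↔
    InH1 ψ ∧ ∀ φ, InH1 φ → form W φ ψ = t * inner ℂ φ ψ := by
  change (ψ, (t : ℂ) • ψ) ∈ ((ham W).graph : Set (L2 m × L2 m)) ↔ _
  rw [gr]
  simp only [formGraph, mem_setOf_eq, inner_smul_right]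

theorem eig_iff {t : ℝ} {f f' : ℝ → Vec m} (hf : IsH1 f f') {ψ : L2 m} (h : ψ =ᵐ[volume] f) :
    ψ ∈ eig (ham W) t ↔ IsEigenfunction W t f f' := by
  rw [mem_eig gr]
  refine ⟨fun k => ⟨hf, fun g g' hg => ?_⟩,
    fun k => ⟨⟨_, wd_of hf h hf.memLp_deriv.coeFn_toLp⟩, fun φ ⟨χ, hχ⟩ => ?_⟩⟩
  · rw [← form_ae hg hf hg.memLp.coeFn_toLp h, ← inner_ae hg.memLp.coeFn_toLp h]
    exact k.2 _ ⟨_, wd_of hg hg.memLp.coeFn_toLp hg.memLp_deriv.coeFn_toLp⟩
  · obtain ⟨g, hg, e⟩ := rep hχ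
    rw [form_ae hg hf e.symm h, inner_ae e.symm h]
    exact k.form_eq _ _ hg

theorem eig_rep {t : ℝ} {ψ : L2 m} (h : ψ ∈ eig (ham W) t) :
    ∃ f f', ψ =ᵐ[volume] f ∧ IsEigenfunction W t f f' := by
  obtain ⟨χ, hχ⟩ := ((mem_eig gr).1 h).1
  obtain ⟨g, hg, e⟩ := rep hχ
  exact ⟨g, χ, e.symm, (eig_iff gr hg e.symm).1 h⟩

theorem osup_eq : osup γ (ham W) = P371.rieszMean γ W := by
  apply le_antisymm
  · refine iSup_le fun N => iSup_le fun lam => iSup_le fun ψ => iSup_le fun h =>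
      iSup_le fun ho => ?_
    choose f f' h1 h2 using fun j => eig_rep gr (h j).2
    refine le_iSup_of_le N <| le_iSup_of_le lam <| le_iSup_of_le f <| le_iSup_of_le f' <|
      le_iSup_of_le (fun j => ⟨(h j).1, h2 j⟩) <| le_iSup_of_le (fun i j => ?_) le_rfl
    rw [← inner_ae (h1 i) (h1 j), orthonormal_iff_ite.1 ho]
  · refine iSup_le fun N => iSup_le fun lam => iSup_le fun f => iSup_le fun f' => iSup_le fun h =>
      iSup_le fun ho => ?_
    have e := fun j => (h j).2.isH1.memLp.coeFn_toLp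
    refine le_iSup_of_le N <| le_iSup_of_le lam <|
      le_iSup_of_le (fun j => (h j).2.isH1.memLp.toLp) <|
      le_iSup_of_le (fun j => ⟨(h j).1, (eig_iff gr (h j).2.isH1 (e j)).2 (h j).2⟩) <|
      le_iSup_of_le (orthonormal_iff_ite.2 fun i j => ?_) le_rfl
    rw [inner_ae (e i) (e j), ho]

theorem ground_eq : ⨆ (t : ℝ) (_ : t < 0 ∧ eig (ham W) t ≠ ⊥), ENNReal.ofReal (|t| ^ γ) =
    P371.groundMean γ W := by
  apply le_antisymm
  · refine iSup₂_le fun t ht => ?_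
    obtain ⟨ψ, h1, h2⟩ := (Submodule.ne_bot_iff _).1 ht.2
    obtain ⟨f, f', e, k⟩ := eig_rep gr h1
    refine le_iSup_of_le t <| le_iSup_of_le f <| le_iSup_of_le f' <|
      le_iSup_of_le ⟨ht.1, k⟩ <| le_iSup_of_le (fun h0 => h2 ?_) le_rfl
    rw [h0] at e
    exact Lp.eq_zero_iff_ae_eq_zero.2 e
  · refine iSup_le fun t => iSup_le fun f => iSup_le fun f' => iSup_le fun h =>
      iSup_le fun h0 => ?_
    have e := h.2.isH1.memLp.coeFn_toLp
    refine le_iSup₂_of_le t ⟨h.1, (Submodule.ne_bot_iff _).2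
      ⟨_, (eig_iff gr h.2.isH1 e).2 h.2, fun h1 => h0 ?_⟩⟩ le_rfl
    exact (h.2.isH1.continuous.ae_eq_iff_eq volume continuous_zero).1
      (e.symm.trans (Lp.eq_zero_iff_ae_eq_zero.1 h1))

end gr

theorem op (hp : 1 < p) (hW : IsPotential p W) :
    IsClosedForm W ∧ ((ham W).graph : Set (L2 m × L2 m)) = formGraph W ∧
      IsSelfAdjoint (ham W) ∧ (∀ z ∈ spec (ham W), z.im = 0) ∧
      (∀ t : ℝ, t < 0 → ((t : ℂ) ∈ spec (ham W) ↔ eig (ham W) t ≠ ⊥)) ∧
      ∀ a b : L2 m × L2 m, a ∈ (ham W).graph → b ∈ (ham W).graph →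
        inner ℂ a.2 b.1 = inner ℂ a.1 b.2 := by
  obtain ⟨V, B, hc, k, e, f, gr⟩ := exists_kit hp hW
  refine ⟨⟨fun φ ψ h1 h2 => ?_, JH_dense.mono fun ψ h => inH1_iff.2 h, ?_, fun ψ φ h1 h2 h3 => ?_⟩,
    gr, k.selfAdjoint, fun z => k.im_zero, fun t ht =>
      ⟨k.eig_of_spec hc e JH_le JH_inj ht, spec_of_eig⟩, fun a b => k.sym⟩
  · obtain ⟨u, rfl⟩ := inH1_iff.1 h1
    obtain ⟨v, rfl⟩ := inH1_iff.1 h2
    exact (pd_int hp.le hW u v).congr (pd_ae W u v)
  · obtain ⟨c, hc, M, hM, h⟩ := k.coe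
    refine ⟨-M, fun ψ h1 => ?_⟩
    obtain ⟨u, rfl⟩ := inH1_iff.1 h1
    rw [f]
    nlinarith [h u, mul_nonneg hc.le (sq_nonneg ‖u‖)]
  · choose u hu using fun n => inH1_iff.1 (h1 n)
    obtain rfl : ψ = fun n => JH m (u n) := funext fun n => (hu n).symm
    simp only [← map_sub, f] at h3
    obtain ⟨v, rfl, hv⟩ := k.closed h2 h3
    refine ⟨inH1_iff.2 ⟨v, rfl⟩, ?_⟩
    simpa only [← map_sub, f] using hv

theorem trPow_eq {M : Mat m m} (hM : M.PosSemidef) (p : ℝ) : trPow p M = P371.trPow p M :=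
  (G.trPow_eq_cfc hM.isHermitian p).symm

theorem pot_of (hW : IsPotential p W) : Potential p W :=
  ⟨fun i j => (hW.measurable i j).aemeasurable, hW.posSemidef,
    hW.integrable.congr (Eventually.of_forall fun x => (trPow_eq (hW.posSemidef x) p).symm)⟩

theorem borel (hW : Potential p W) : ∃ W', IsPotential p W' ∧ W =ᵐ[volume] W' := by
  classical
  set g : ℝ → Mat m m := fun x => Matrix.of fun i j => (hW.measurable i j).mk _ x with hg
  have e : ∀ᵐ x, W x = g x := by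
    filter_upwards [ae_all_iff.2 fun i => ae_all_iff.2 fun j => (hW.measurable i j).ae_eq_mk]
      with x hx
    exact Matrix.ext hx
  set s := toMeasurable volume {x | ¬ W x = g x} with hs
  have s0 : ∀ᵐ x, x ∉ s := by
    rw [← measure_eq_zero_iff_ae_notMem, hs, measure_toMeasurable]
    exact ae_iff.1 e
  have s1 : ∀ x, x ∉ s → W x = g x := fun x hx => by
    by_contra h
    exact hx (subset_toMeasurable _ _ h)
  have e2 : W =ᵐ[volume] fun x => if x ∈ s then 0 else g x := by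
    filter_upwards [s0] with x hx
    rw [if_neg hx, s1 x hx]
  refine ⟨_, ⟨fun i j => ?_, fun x => ?_, hW.integrable.congr ?_⟩, e2⟩
  · have : (fun x => (if x ∈ s then 0 else g x) i j) =
        fun x => if x ∈ s then 0 else (hW.measurable i j).mk _ x := by
      funext x
      split_ifs <;> rfl
    rw [this]
    exact Measurable.ite (measurableSet_toMeasurable _ _) measurable_const
      (hW.measurable i j).measurable_mk
  · split_ifs with h
    · exact Matrix.PosSemidef.zero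
    · exact s1 x h ▸ hW.posSemidef x
  · filter_upwards [e2] with x hx
    rw [← hx, trPow_eq (hW.posSemidef x)]

theorem form_congr (h : W =ᵐ[volume] W') : form W = form W' := by
  funext φ ψ
  unfold form
  congr 1
  refine integral_congr_ae ?_
  filter_upwards [h] with x hx
  rw [hx]

theorem graph_congr (h : W =ᵐ[volume] W') : formGraph W = formGraph W' := by
  unfold formGraph
  rw [form_congr h]

theorem ham_congr (h : W =ᵐ[volume] W') : ham W = ham W' := by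
  unfold ham
  rw [graph_congr h]

theorem closed_congr (h : W =ᵐ[volume] W') (k : IsClosedForm W') : IsClosedForm W := by
  refine ⟨fun φ ψ h1 h2 => (k.int φ ψ h1 h2).congr ?_, k.dense, ?_, ?_⟩
  · filter_upwards [h] with x hx
    rw [hx]
  · rw [form_congr h]; exact k.low
  · rw [form_congr h]; exact k.closed

theorem int_congr (hW : IsPotential p W') (h : W =ᵐ[volume] W') :
    ∫ x, trPow p (W x) = ∫ x, P371.trPow p (W' x) := by
  refine integral_congr_ae ?_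
  filter_upwards [h] with x hx
  rw [hx, trPow_eq (hW.posSemidef x)]

theorem tr_eq (hp : 1 < p) (hW : IsPotential p W) : trNeg γ (ham W) = P371.rieszMean γ W :=
  (trNeg_eq (op hp hW).2.2.2.2.2).trans (osup_eq (op hp hW).2.1)

theorem sup_eq (hp : 0 < p) {F G : (ℝ → Mat m m) → ℝ≥0∞}
    (h1 : ∀ W W', IsPotential p W' → W =ᵐ[volume] W' → F W = G W')
    (h2 : ∀ W, IsPotential p W → ∫ x, P371.trPow p (W x) = 0 → G W = 0) :
    ⨆ (W : ℝ → Mat m m) (_ : Potential p W) (_ : ¬ W =ᵐ[volume] 0),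
      F W / ENNReal.ofReal (∫ x, trPow p (W x)) =
    ⨆ (W : ℝ → Mat m m) (_ : IsPotential p W) (_ : ∫ x, P371.trPow p (W x) ≠ 0),
      G W / ENNReal.ofReal (∫ x, P371.trPow p (W x)) := by
  apply le_antisymm
  · refine iSup_le fun W => iSup_le fun hW => iSup_le fun _ => ?_
    obtain ⟨W', k, e⟩ := borel hW
    rw [h1 W W' k e, int_congr k e]
    by_cases h0 : ∫ x, P371.trPow p (W' x) = 0
    · rw [h2 W' k h0, ENNReal.zero_div]
      exact zero_le
    · exact le_iSup_of_le W' <| le_iSup_of_le k <| le_iSup_of_le h0 le_rfl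
  · refine iSup_le fun W => iSup_le fun hW => iSup_le fun h0 => ?_
    rw [← h1 W W hW (ae_eq_refl _), ← int_congr hW (ae_eq_refl _)]
    refine le_iSup_of_le W <| le_iSup_of_le (pot_of hW) <| le_iSup_of_le (fun h => h0 ?_) le_rfl
    refine integral_eq_zero_of_ae ?_
    filter_upwards [h] with x hx
    have := trPow_diagonal (m := m) p (fun _ => 0)
    simp only [Complex.ofReal_zero, Matrix.diagonal_zero, abs_zero, Real.zero_rpow hp.ne',
      Finset.sum_const_zero] at this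
    rw [hx]
    exact this

theorem main (γ : ℝ) (hγ : 1 / 2 < γ) (hγ' : γ < 3 / 2) (m : ℕ) (hm : 1 ≤ m) :
    LTconst γ m = ENNReal.ofReal (2 * ((γ - 1 / 2) / (γ + 1 / 2)) ^ (γ - 1 / 2) * Lcl γ) ∧
    LTconst γ m = LTconst γ 1 ∧ LTconst γ 1 = LTone γ ∧
    (∀ ψ χ : L2 m, IsWeakDeriv ψ χ → wd ψ = χ) ∧
    ∀ W : ℝ → Matrix (Fin m) (Fin m) ℂ, Potential (γ + 1 / 2) W →
      IsClosedForm W ∧ ((ham W).graph : Set (L2 m × L2 m)) = formGraph W ∧
      IsSelfAdjoint (ham W) ∧ (∀ z ∈ spec (ham W), z.im = 0) ∧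
      (∀ t : ℝ, t < 0 → (((t : ℂ) ∈ spec (ham W) ↔ eig (ham W) t ≠ ⊥) ∧ mult (ham W) t < ⊤)) ∧
      (∀ ε : ℝ, 0 < ε → {t : ℝ | t ≤ -ε ∧ (t : ℂ) ∈ spec (ham W)}.Finite) ∧
      trNeg γ (ham W) ≤ ENNReal.ofReal (2 * ((γ - 1 / 2) / (γ + 1 / 2)) ^ (γ - 1 / 2) * Lcl γ *
        ∫ x, trPow (γ + 1 / 2) (W x)) ∧
      (trNeg γ (ham W) = ENNReal.ofReal (2 * ((γ - 1 / 2) / (γ + 1 / 2)) ^ (γ - 1 / 2) * Lcl γ *
          ∫ x, trPow (γ + 1 / 2) (W x)) ↔
        ∃ (U : Matrix (Fin m) (Fin m) ℂ) (a c : Fin m → ℝ), U ∈ Matrix.unitaryGroup (Fin m) ℂ ∧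
          (∀ i, 0 ≤ a i) ∧ ∀ᵐ x : ℝ, W x = U * Matrix.diagonal (fun i =>
            (((γ - 1 / 2) * (γ + 1 / 2) * a i ^ 2 / Real.cosh (a i * (x - c i)) ^ 2 : ℝ) : ℂ)) *
            U.conjTranspose) := by
  have hp : 1 < γ + 1 / 2 := by linarith
  have hM : ∀ N m, G.MainHyp γ (G.Cg γ) N m := fun N m => PI.mainHyp hγ hγ' N m
  have lt : ∀ {m : ℕ} {W : ℝ → Mat m m}, IsPotential (γ + 1 / 2) W → P371.rieszMean γ W ≤
      ENNReal.ofReal (G.Cg γ * ∫ x, P371.trPow (γ + 1 / 2) (W x)) := fun {m W} hW =>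
    G.rieszMean_le_of_main hγ (G.Cg_pos hγ).le (fun N => hM N m) hW
  have fin : ∀ {m : ℕ} {W : ℝ → Mat m m}, IsPotential (γ + 1 / 2) W → trNeg γ (ham W) ≠ ⊤ :=
    fun {m W} hW => ne_top_of_le_ne_top ENNReal.ofReal_ne_top ((tr_eq hp hW).trans_le (lt hW))
  have z : ∀ {m : ℕ} (W : ℝ → Mat m m), IsPotential (γ + 1 / 2) W →
      ∫ x, P371.trPow (γ + 1 / 2) (W x) = 0 → P371.rieszMean γ W = 0 := fun {m} W hW h0 => by
    have := lt hW
    rwa [h0, mul_zero, ENNReal.ofReal_zero, nonpos_iff_eq_zero] at this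
  have c1 : ∀ m, LTconst γ m = P371.LTconst γ m := fun m =>
    sup_eq (F := fun W => trNeg γ (ham W)) (by linarith)
      (fun W W' k e => by rw [ham_congr e, tr_eq hp k]) z
  have c2 : LTone γ = P371.LTone γ :=
    sup_eq (F := fun W => lowest γ (ham W)) (by linarith)
      (fun W W' k e => by
        rw [ham_congr e, lowest_eq (by linarith) (fin k), ground_eq (op hp k).2.1])
      (fun W hW h0 => by
        rw [← ground_eq (op hp hW).2.1, ← nonpos_iff_eq_zero, ← z W hW h0, ← tr_eq hp hW]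
        refine iSup₂_le fun t ht => le_trans (le_mul_of_one_le_left' ?_)
          (ENNReal.le_tsum (⟨t, ht.1⟩ : Set.Iio (0 : ℝ)))
        rw [← ENat.toENNReal_one, ENat.toENNReal_le, mult, Cardinal.one_le_toENat,
          Cardinal.one_le_iff_ne_zero, Ne, Submodule.rank_eq_zero]
        exact ht.2)
  obtain ⟨a1, a2⟩ := G.LTconst_eq_of_main hγ hm (fun N => hM N m)
  obtain ⟨a3, -⟩ := G.LTconst_eq_of_main hγ le_rfl (fun N => hM N 1)
  refine ⟨(c1 m).trans (a1.trans a2), by rw [c1, c1, a1, a3], by rw [c1, c2, a3],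
    fun ψ χ => wd_eq, fun W hW => ?_⟩
  obtain ⟨W', k, e⟩ := borel hW
  obtain ⟨o1, o2, o3, o4, o5, o6⟩ := op hp k
  rw [ham_congr e, graph_congr e, int_congr k e]
  refine ⟨closed_congr e o1, o2, o3, o4, fun t ht => ⟨o5 t ht, mult_lt (γ := γ) o6 ?_ ht⟩,
    fun ε hε => (finite_eig (by linarith) (fin k) hε).subset fun t ht =>
      ⟨ht.1, (o5 t (by linarith [ht.1])).1 ht.2⟩, ?_, ?_⟩
  · rw [← trNeg_eq o6]
    exact fin k
  · have := lt k
    rw [G.Cg_eq hγ] at this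
    exact (tr_eq hp k).trans_le this
  · rw [tr_eq hp k, LT.rieszMean_eq]
    refine (P371EF.main γ hγ hγ' m W' (LT.isPotential_iff.1 k)).trans ?_
    refine exists₃_congr fun U a c => and_congr_right fun _ => and_congr_right fun _ => ?_
    refine eventually_congr ?_
    filter_upwards [e] with x hx
    rw [hx]

end

end Vale.Agent.P371W
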